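import Mathlib

/-!
# S0466, package LA (helper13) for helper6's lone statement

Functions supported on `A` and killed by `|I|` linear functionals form a subspace of dimension at
least `|A| - |I|` (rank-nullity).  Mathlib only.
-/

set_option autoImplicit false
set_option linter.unusedSectionVars false
set_option linter.unusedDecidableInType false

namespace Crest.Agent.S0466.Helper13

open Finset

variable {E : Type*} [Fintype E] [DecidableEq E]

/-- Extension by zero of a function on the finite set `A` to all of `E`, as a linear map. -/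
noncomputable def extA (A : Finset E) : (↥A → ℝ) →ₗ[ℝ] (E → ℝ) where
  toFun f e := if h : e ∈ A then f ⟨e, h⟩ else 0
  map_add' f g := by
    funext e
    by_cases h : e ∈ A <;> simp [h]
  map_smul' c f := by
    funext e
    by_cases h : e ∈ A <;> simp [h]

lemma extA_apply_of_mem (A : Finset E) (f : ↥A → ℝ) {e : E} (h : e ∈ A) :
    extA A f e = f ⟨e, h⟩ := by
  simp [extA, h]

lemma extA_apply_of_not_mem (A : Finset E) (f : ↥A → ℝ) {e : E} (h : e ∉ A) :
    extA A f e = 0 := by
  simp [extA, h]

lemma extA_injective (A : Finset E) : Function.Injective (extA A) := by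
  intro f g hfg
  funext x
  obtain ⟨e, he⟩ := x
  have h := congrFun hfg e
  rwa [extA_apply_of_mem A f he, extA_apply_of_mem A g he] at h

/-- PACKAGE LA.  Functions supported on `A` killed by `|I|` linear functionals form a subspace of
dimension at least `|A| - |I|`. -/
theorem exists_subspace_of_functionals {ι : Type*} (A : Finset E) (I : Finset ι)
    (φ : ι → (E → ℝ) →ₗ[ℝ] ℝ) :
    ∃ L : Submodule ℝ (E → ℝ), (∀ h ∈ L, (∀ e, e ∉ A → h e = 0) ∧ ∀ i ∈ I, φ i h = 0) ∧
      A.card ≤ Module.finrank ℝ L + I.card := by
  classical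
  let Ψ : (↥A → ℝ) →ₗ[ℝ] (↥I → ℝ) := LinearMap.pi fun i => (φ i.1).comp (extA A)
  refine ⟨(LinearMap.ker Ψ).map (extA A), ?_, ?_⟩
  · rintro h ⟨f, hf, rfl⟩
    refine ⟨fun e he => extA_apply_of_not_mem A f he, fun i hi => ?_⟩
    have h0 := congrFun (LinearMap.mem_ker.1 hf) ⟨i, hi⟩
    simpa [Ψ] using h0
  · have h1 : Module.finrank ℝ ((LinearMap.ker Ψ).map (extA A))
        = Module.finrank ℝ (LinearMap.ker Ψ) :=
      (Submodule.equivMapOfInjective (extA A) (extA_injective A)
        (LinearMap.ker Ψ)).finrank_eq.symm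
    have h2 := LinearMap.finrank_range_add_finrank_ker Ψ
    have h3 : Module.finrank ℝ (LinearMap.range Ψ) ≤ Module.finrank ℝ (↥I → ℝ) :=
      Submodule.finrank_le _
    rw [Module.finrank_fintype_fun_eq_card] at h2 h3
    simp only [Fintype.card_coe] at h2 h3
    omega

end Crest.Agent.S0466.Helper13
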