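import Crest.Agent.Lib.S0466.Helper6Defs
import Crest.Agent.Lib.S0466.Helper13LA

/-!
# S0466, package DA (helper13) for helper6's lone statement

Case A of the dimension induction (no nontrivial tight odd set): the direction space of all
functions supported on `A` with zero degree sums has dimension at least `|A| - |U|`
(`|A| - 1` when `|U| = 2`), by package LA.
-/

set_option autoImplicit false
set_option linter.unusedSectionVars false
set_option linter.unusedDecidableInType false

namespace Crest.Agent.S0466.Helper13

open Finset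

variable {V E : Type*} [Fintype V] [DecidableEq V] [Fintype E] [DecidableEq E]

/-- `vsum ends · u` as a linear functional. -/
def vsumL (ends : E → V × V) (u : V) : (E → ℝ) →ₗ[ℝ] ℝ where
  toFun y := vsum ends y u
  map_add' y z := vsum_add ends y z u
  map_smul' t y := by
    simp only [vsum_smul, RingHom.id_apply, smul_eq_mul]

lemma vsumL_apply (ends : E → V × V) (u : V) (y : E → ℝ) :
    vsumL ends u y = vsum ends y u := rfl

/-- PACKAGE DA (case A of the dimension induction: no nontrivial tight odd set). -/
theorem dim_caseA {ends : E → V × V} {U : Finset V} {A : Finset E} (hV : Valid ends U A)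
    (hQP : Q ends U A ⊆ P ends U A) {x : E → ℝ} (hx : x ∈ Q ends U A) (hU : 2 ≤ U.card)
    (hpert : ∀ h : E → ℝ, (∀ e, e ∉ A → h e = 0) → (∀ u ∈ U, vsum ends h u = 0) →
      ∃ ε > 0, ∀ t : ℝ, |t| < ε → x + t • h ∈ Q ends U A) :
    ∃ L : Submodule ℝ (E → ℝ),
      (∀ h ∈ L, ∃ ε > 0, ∀ t : ℝ, |t| < ε → x + t • h ∈ P ends U A) ∧
      2 * A.card + 4 ≤ 2 * Module.finrank ℝ L + 3 * U.card := by
  classical
  have heven : Even U.card := Q_even_card hV hx
  by_cases h4 : 4 ≤ U.card
  · obtain ⟨L, hL, hcard⟩ := exists_subspace_of_functionals A U (fun u => vsumL ends u)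
    refine ⟨L, fun h hh => ?_, by omega⟩
    obtain ⟨hs, hv⟩ := hL h hh
    obtain ⟨ε, hε, hq⟩ := hpert h hs (fun u hu => hv u hu)
    exact ⟨ε, hε, fun t ht => hQP (hq t ht)⟩
  · have h2 : U.card = 2 := by
      rcases heven with ⟨k, hk⟩
      omega
    obtain ⟨a, b, hab, rfl⟩ := Finset.card_eq_two.1 h2
    obtain ⟨L, hL, hcard⟩ :=
      exists_subspace_of_functionals A ({a} : Finset V) (fun u => vsumL ends u)
    refine ⟨L, fun h hh => ?_, ?_⟩
    · obtain ⟨hs, hv⟩ := hL h hh
      have ha : vsum ends h a = 0 := hv a (Finset.mem_singleton_self a)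
      have hb : vsum ends h b = 0 := by
        rw [← ha]
        unfold vsum
        refine sum_filter_congr_supp A h hs _ _ fun e he => ?_
        obtain ⟨h1, h2', hne⟩ := hV e he
        simp only [Finset.mem_insert, Finset.mem_singleton] at h1 h2'
        unfold inc
        rcases h1 with h1 | h1 <;> rcases h2' with h2' | h2'
        · exact absurd (h1.trans h2'.symm) hne
        · exact ⟨fun _ => Or.inl h1, fun _ => Or.inr h2'⟩
        · exact ⟨fun _ => Or.inr h2', fun _ => Or.inl h1⟩
        · exact absurd (h1.trans h2'.symm) hne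
      obtain ⟨ε, hε, hq⟩ := hpert h hs (fun u hu => by
        simp only [Finset.mem_insert, Finset.mem_singleton] at hu
        rcases hu with rfl | rfl
        · exact ha
        · exact hb)
      exact ⟨ε, hε, fun t ht => hQP (hq t ht)⟩
    · simp only [Finset.card_singleton] at hcard
      omega

end Crest.Agent.S0466.Helper13
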