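import Crest.Agent.Lib.S0466.Helper6Defs

/-!
# S0466, package K (helper63): the kernel vector

`exists_kernel_vector`: for `y ∈ Q`, positive on the active edges, with some active edge
`y e0 < 1` and no nontrivial tight odd set, there is a nonzero `h` supported on the active edges
with zero sum at every active vertex.

Proof (helper6's paper proof).  `Af` = active edges with `y < 1`, `Uf` = their endpoints.  Every
active edge at a vertex of `Uf` lies in `Af` and there are at least two of them.
* If `|Uf| < |Af|`, rank-nullity for `(Af → ℝ) → (Uf → ℝ)` gives `h`.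
* Otherwise every vertex of `Uf` has exactly two active edges.  Let `e0 = {v, u}`, `e1` the other
  active edge at `v`, with other endpoint `w`.
  * `w = u`: `h = chi {e0} - chi {e1}`.
  * `w ≠ u`: `S = {u, v, w}` is a tight odd set, so `|U| = 4`, `U = S ∪ {t}`, the second edges
    `f` at `u` and `f'` at `w` both end at `t`, and `h = chi {e0} - chi {f} + chi {f'} - chi {e1}`.
-/

set_option autoImplicit false
set_option linter.unusedSectionVars false
set_option linter.unusedDecidableInType false
set_option linter.unusedVariables false

namespace Crest.Agent.S0466.Helper63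

open Finset
open Crest.Agent.S0466

variable {V E : Type*} [Fintype V] [DecidableEq V] [Fintype E] [DecidableEq E]

/-- `vsum` of a function vanishing off `A` only sees the active edges. -/
lemma vsum_eq_sum_star (ends : E → V × V) (A : Finset E) (y : E → ℝ)
    (hy : ∀ e, e ∉ A → y e = 0) (u : V) :
    vsum ends y u = ∑ e ∈ A.filter (fun e => inc ends e u), y e := by
  unfold vsum
  symm
  refine Finset.sum_subset (Finset.filter_subset_filter _ (Finset.subset_univ A)) ?_
  intro e he hne
  apply hy
  intro heA
  exact hne (Finset.mem_filter.mpr ⟨heA, (Finset.mem_filter.mp he).2⟩)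

/-- `vsum` of the indicator of a single edge. -/
lemma vsum_chi_singleton (ends : E → V × V) (e : E) (u : V) :
    vsum ends (chi {e}) u = if inc ends e u then 1 else 0 := by
  rw [vsum_chi, Finset.filter_singleton]
  split_ifs <;> simp

/-- Rank-nullity: more edges than vertices gives a kernel vector. -/
lemma exists_kernel_of_card_lt (ends : E → V × V) (Af : Finset E) (Uf : Finset V)
    (hcard : Uf.card < Af.card) :
    ∃ h : E → ℝ, h ≠ 0 ∧ (∀ e, e ∉ Af → h e = 0) ∧ ∀ u ∈ Uf, vsum ends h u = 0 := by
  classical
  let vs : (E → ℝ) →ₗ[ℝ] (V → ℝ) :=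
    { toFun := fun h u => vsum ends h u
      map_add' := fun y z => by ext u; exact vsum_add ends y z u
      map_smul' := fun t y => by ext u; simp [vsum_smul] }
  let T : (↥Af → ℝ) →ₗ[ℝ] (↥Uf → ℝ) :=
    (LinearMap.funLeft ℝ ℝ (Subtype.val : ↥Uf → V)) ∘ₗ vs ∘ₗ
      (Function.ExtendByZero.linearMap ℝ (Subtype.val : ↥Af → E))
  have hfin : Module.finrank ℝ (↥Uf → ℝ) < Module.finrank ℝ (↥Af → ℝ) := by
    simp only [Module.finrank_fintype_fun_eq_card, Fintype.card_coe]
    exact hcard
  have hker : LinearMap.ker T ≠ ⊥ := LinearMap.ker_ne_bot_of_finrank_lt hfin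
  obtain ⟨g, hg, hg0⟩ := (Submodule.ne_bot_iff _).mp hker
  refine ⟨Function.extend Subtype.val g 0, ?_, ?_, ?_⟩
  · intro h0
    apply hg0
    ext e
    have := congrFun h0 e.1
    rw [Subtype.val_injective.extend_apply] at this
    simpa using this
  · intro e he
    rw [Function.extend_apply']
    · rfl
    · rintro ⟨a, rfl⟩
      exact he a.2
  · intro u hu
    have := congrFun (LinearMap.mem_ker.mp hg) ⟨u, hu⟩
    exact this

/-- The other endpoint of an active edge. -/
lemma exists_other_end {ends : E → V × V} {U : Finset V} {A : Finset E} (hV : Valid ends U A)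
    {e : E} (he : e ∈ A) {a : V} (ha : inc ends e a) :
    ∃ b, b ∈ U ∧ b ≠ a ∧ ∀ x, inc ends e x ↔ (x = a ∨ x = b) := by
  obtain ⟨h1, h2, hne⟩ := hV e he
  rcases ha with ha | ha
  · subst ha
    refine ⟨(ends e).2, h2, fun h => hne h.symm, fun x => ?_⟩
    unfold inc
    constructor
    · rintro (h | h)
      · exact Or.inl h.symm
      · exact Or.inr h.symm
    · rintro (h | h)
      · exact Or.inl h.symm
      · exact Or.inr h.symm
  · subst ha
    refine ⟨(ends e).1, h1, hne, fun x => ?_⟩
    unfold inc
    constructor
    · rintro (h | h)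
      · exact Or.inr h.symm
      · exact Or.inl h.symm
    · rintro (h | h)
      · exact Or.inr h.symm
      · exact Or.inl h.symm

omit [Fintype V] [DecidableEq V] [Fintype E] in
/-- A two-element finset containing `a` is `{a, b}` for some `b ≠ a`. -/
lemma exists_pair_of_card_two {s : Finset E} (hs : s.card = 2)
    {a : E} (ha : a ∈ s) : ∃ b, b ≠ a ∧ s = {a, b} := by
  obtain ⟨x, y, hxy, rfl⟩ := Finset.card_eq_two.mp hs
  rcases Finset.mem_insert.mp ha with rfl | h
  · exact ⟨y, hxy.symm, rfl⟩
  · rw [Finset.mem_singleton] at h
    subst h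
    exact ⟨x, hxy, Finset.pair_comm x a⟩

omit [Fintype V] [DecidableEq V] [Fintype E] [DecidableEq E] in
lemma inside_of_inc {ends : E → V × V} {S : Finset V} {e : E}
    (h : ∀ x, inc ends e x → x ∈ S) : inside ends S e :=
  ⟨h _ (Or.inl rfl), h _ (Or.inr rfl)⟩

/-- PACKAGE K (kernel vector). -/
theorem exists_kernel_vector {ends : E → V × V} {U : Finset V} {A : Finset E}
    (hV : Valid ends U A) {y : E → ℝ} (hy : y ∈ Q ends U A) (hpos : ∀ e ∈ A, 0 < y e)
    {e0 : E} (he0 : e0 ∈ A) (hlt : y e0 < 1)
    (hnt : ∀ S, S ⊆ U → Odd S.card → 3 ≤ S.card → S.card + 3 ≤ U.card → csum ends y S ≠ 1) :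
    ∃ h : E → ℝ, h ≠ 0 ∧ (∀ e, e ∉ A → h e = 0) ∧ ∀ u ∈ U, vsum ends h u = 0 := by
  classical
  have hyQ := hy
  obtain ⟨hy0, hyA, hyv, hyodd⟩ := hy
  -- the active edges at an active vertex have total weight one
  have hstar : ∀ u ∈ U, ∑ e ∈ A.filter (fun e => inc ends e u), y e = 1 := fun u hu => by
    rw [← vsum_eq_sum_star ends A y hyA u]
    exact hyv u hu
  -- at a vertex with a fractional active edge, all active edges are fractional
  have hfrac : ∀ u ∈ U, ∀ e ∈ A, inc ends e u → y e < 1 →
      ∀ e' ∈ A, inc ends e' u → y e' < 1 := by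
    intro u hu e he hinc hlt' e' he' hinc'
    by_contra hge'
    have hge : 1 ≤ y e' := not_lt.mp hge'
    have hne : e ≠ e' := fun h => by
      rw [h] at hlt'
      linarith
    have hsub : ({e, e'} : Finset E) ⊆ A.filter (fun e => inc ends e u) := by
      intro x hx
      rcases Finset.mem_insert.mp hx with rfl | hx
      · exact Finset.mem_filter.mpr ⟨he, hinc⟩
      · rw [Finset.mem_singleton] at hx
        subst hx
        exact Finset.mem_filter.mpr ⟨he', hinc'⟩
    have h1 := Finset.sum_le_sum_of_subset_of_nonneg hsub (f := y) (fun i _ _ => hy0 i)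
    rw [Finset.sum_pair hne, hstar u hu] at h1
    have h2 := hpos e he
    linarith
  -- ... and there are at least two of them
  have hdeg2 : ∀ u ∈ U, ∀ e ∈ A, inc ends e u → y e < 1 →
      2 ≤ (A.filter (fun e => inc ends e u)).card := by
    intro u hu e he hinc hlt'
    by_contra hcard
    have hmem : e ∈ A.filter (fun e => inc ends e u) := Finset.mem_filter.mpr ⟨he, hinc⟩
    have h1 : (A.filter (fun e => inc ends e u)).card = 1 := by
      have := Finset.card_pos.mpr ⟨e, hmem⟩
      omega
    obtain ⟨x, hx⟩ := Finset.card_eq_one.mp h1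
    have hxe : x = e := by
      rw [hx] at hmem
      exact (Finset.mem_singleton.mp hmem).symm
    have h2 := hstar u hu
    rw [hx, Finset.sum_singleton, hxe] at h2
    linarith
  set Af : Finset E := A.filter (fun e => y e < 1) with hAf
  set Uf : Finset V := U.filter (fun u => ∃ e ∈ Af, inc ends e u) with hUf
  by_cases hcard : Uf.card < Af.card
  · -- rank-nullity
    obtain ⟨h, hne, hsupp, hker⟩ := exists_kernel_of_card_lt ends Af Uf hcard
    refine ⟨h, hne, fun e he => hsupp e (fun h' => he (Finset.mem_filter.mp h').1),
      fun u hu => ?_⟩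
    by_cases huf : u ∈ Uf
    · exact hker u huf
    · unfold vsum
      refine Finset.sum_eq_zero fun e he => ?_
      by_contra hne'
      have heAf : e ∈ Af := by
        by_contra h'
        exact hne' (hsupp e h')
      exact huf (Finset.mem_filter.mpr ⟨hu, e, heAf, (Finset.mem_filter.mp he).2⟩)
  · -- every vertex of `Uf` has exactly two active edges
    have hstarf : ∀ u ∈ Uf, Af.filter (fun e => inc ends e u)
        = A.filter (fun e => inc ends e u) := by
      intro u hu
      obtain ⟨huU, e', he'Af, hinc'⟩ := Finset.mem_filter.mp hu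
      obtain ⟨he'A, he'lt⟩ := Finset.mem_filter.mp he'Af
      ext e
      constructor
      · intro he
        obtain ⟨heAf, hinc⟩ := Finset.mem_filter.mp he
        exact Finset.mem_filter.mpr ⟨(Finset.mem_filter.mp heAf).1, hinc⟩
      · intro he
        obtain ⟨heA, hinc⟩ := Finset.mem_filter.mp he
        exact Finset.mem_filter.mpr
          ⟨Finset.mem_filter.mpr ⟨heA, hfrac u huU e' he'A hinc' he'lt e heA hinc⟩, hinc⟩
    have hge2 : ∀ u ∈ Uf, 2 ≤ (Af.filter (fun e => inc ends e u)).card := by
      intro u hu
      rw [hstarf u hu]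
      obtain ⟨huU, e', he'Af, hinc'⟩ := Finset.mem_filter.mp hu
      obtain ⟨he'A, he'lt⟩ := Finset.mem_filter.mp he'Af
      exact hdeg2 u huU e' he'A hinc' he'lt
    have hendsUf : ∀ e ∈ Af, (ends e).1 ∈ Uf ∧ (ends e).2 ∈ Uf := by
      intro e he
      have heA := (Finset.mem_filter.mp he).1
      exact ⟨Finset.mem_filter.mpr ⟨(hV e heA).1, e, he, Or.inl rfl⟩,
        Finset.mem_filter.mpr ⟨(hV e heA).2.1, e, he, Or.inr rfl⟩⟩
    have hdc : ∑ u ∈ Uf, (Af.filter (fun e => inc ends e u)).card = 2 * Af.card := by
      have hchi : ∀ e, e ∉ A → chi Af e = 0 := by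
        intro e he
        have : e ∉ Af := fun h => he (Finset.mem_filter.mp h).1
        simp [chi, this]
      have h1 := sum_vsum_eq hV (chi Af) hchi Uf
      have h2 : Af.filter (fun e => crosses ends Uf e) = ∅ := by
        ext e
        simp only [Finset.mem_filter, Finset.notMem_empty, iff_false, not_and]
        intro he hcr
        obtain ⟨ha, hb⟩ := hendsUf e he
        unfold crosses at hcr
        tauto
      have h3 : Af.filter (fun e => inside ends Uf e) = Af := by
        ext e
        simp only [Finset.mem_filter, and_iff_left_iff_imp]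
        intro he
        exact hendsUf e he
      simp only [vsum_chi, csum_chi, isum_chi, h2, h3, Finset.card_empty, Nat.cast_zero,
        zero_add] at h1
      exact_mod_cast h1
    have hdegeq : ∀ u ∈ Uf, (A.filter (fun e => inc ends e u)).card = 2 := by
      intro u hu
      rw [← hstarf u hu]
      by_contra hne
      have hlt3 : 2 < (Af.filter (fun e => inc ends e u)).card := by
        have := hge2 u hu
        omega
      have hsum : ∑ _u ∈ Uf, 2 < ∑ u ∈ Uf, (Af.filter (fun e => inc ends e u)).card :=
        Finset.sum_lt_sum (fun i hi => hge2 i hi) ⟨u, hu, hlt3⟩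
      rw [Finset.sum_const, smul_eq_mul, hdc] at hsum
      omega
    -- the two endpoints of `e0`
    have hinc0 : inc ends e0 (ends e0).1 := Or.inl rfl
    obtain ⟨v, hvdef⟩ : ∃ v, v = (ends e0).1 := ⟨_, rfl⟩
    rw [← hvdef] at hinc0
    have hvU : v ∈ U := by
      rw [hvdef]
      exact (hV e0 he0).1
    obtain ⟨u, huU, huv, hinc_e0⟩ := exists_other_end hV he0 hinc0
    have he0Af : e0 ∈ Af := Finset.mem_filter.mpr ⟨he0, hlt⟩
    have hvUf : v ∈ Uf := Finset.mem_filter.mpr ⟨hvU, e0, he0Af, hinc0⟩
    have hinc0u : inc ends e0 u := (hinc_e0 u).mpr (Or.inr rfl)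
    have huUf : u ∈ Uf := Finset.mem_filter.mpr ⟨huU, e0, he0Af, hinc0u⟩
    -- the second active edge at `v`
    obtain ⟨e1, he10, hstarv⟩ := exists_pair_of_card_two (hdegeq v hvUf)
      (Finset.mem_filter.mpr ⟨he0, hinc0⟩)
    have he1mem : e1 ∈ A.filter (fun e => inc ends e v) := by
      rw [hstarv]
      simp
    have he1A : e1 ∈ A := (Finset.mem_filter.mp he1mem).1
    have hinc1v : inc ends e1 v := (Finset.mem_filter.mp he1mem).2
    have hsum01 : y e0 + y e1 = 1 := by
      have h1 := hstar v hvU
      rwa [hstarv, Finset.sum_pair he10.symm] at h1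
    have he1lt : y e1 < 1 := hfrac v hvU e0 he0 hinc0 hlt e1 he1A hinc1v
    have hstarv' : ∀ e ∈ A, inc ends e v → e = e0 ∨ e = e1 := by
      intro e heA hinc
      have : e ∈ A.filter (fun e => inc ends e v) := Finset.mem_filter.mpr ⟨heA, hinc⟩
      rw [hstarv] at this
      simpa using this
    obtain ⟨w, hwU, hwv, hinc_e1⟩ := exists_other_end hV he1A hinc1v
    have he1Af : e1 ∈ Af := Finset.mem_filter.mpr ⟨he1A, he1lt⟩
    have hinc1w : inc ends e1 w := (hinc_e1 w).mpr (Or.inr rfl)
    have hwUf : w ∈ Uf := Finset.mem_filter.mpr ⟨hwU, e1, he1Af, hinc1w⟩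
    by_cases hwu : w = u
    · -- a double edge
      subst hwu
      refine ⟨chi {e0} - chi {e1}, ?_, ?_, ?_⟩
      · intro h0
        have h1 := congrFun h0 e0
        simp [chi, he10.symm] at h1
      · intro e he
        have h0 : e ≠ e0 := fun h => he (h ▸ he0)
        have h1 : e ≠ e1 := fun h => he (h ▸ he1A)
        simp [chi, h0, h1]
      · intro x _
        rw [vsum_sub, vsum_chi_singleton, vsum_chi_singleton]
        by_cases hx : inc ends e0 x
        · have hx1 : inc ends e1 x := (hinc_e1 x).mpr ((hinc_e0 x).mp hx)
          simp [hx, hx1]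
        · have hx1 : ¬ inc ends e1 x := fun h => hx ((hinc_e0 x).mpr ((hinc_e1 x).mp h))
          simp [hx, hx1]
    · -- a path `u - v - w`
      have huw : u ≠ w := fun h => hwu h.symm
      have hn1u : ¬ inc ends e1 u := by
        intro h
        rcases (hinc_e1 u).mp h with h | h
        · exact huv h
        · exact huw h
      have hn0w : ¬ inc ends e0 w := by
        intro h
        rcases (hinc_e0 w).mp h with h | h
        · exact hwv h
        · exact hwu h
      obtain ⟨S, hSdef⟩ : ∃ S : Finset V, S = {u, v, w} := ⟨_, rfl⟩
      have hmemS : ∀ x, x ∈ S ↔ (x = u ∨ x = v ∨ x = w) := by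
        intro x
        rw [hSdef]
        simp
      have hScard : S.card = 3 := by
        rw [hSdef, Finset.card_insert_of_notMem, Finset.card_insert_of_notMem,
          Finset.card_singleton]
        · simp [hwv.symm]
        · simp [huv, huw]
      have hSU : S ⊆ U := by
        intro x hx
        rcases (hmemS x).mp hx with rfl | rfl | rfl <;> assumption
      have hodd : Odd S.card := by
        rw [hScard]
        exact ⟨1, rfl⟩
      have hsum3 : ∑ x ∈ S, vsum ends y x = 3 := by
        rw [Finset.sum_congr rfl (fun x hx => hyv x (hSU hx))]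
        simp [hScard]
      have hdcS := sum_vsum_eq hV y hyA S
      rw [hsum3] at hdcS
      have hin0 : inside ends S e0 := inside_of_inc fun x hx => by
        rcases (hinc_e0 x).mp hx with h | h
        · exact (hmemS x).mpr (Or.inr (Or.inl h))
        · exact (hmemS x).mpr (Or.inl h)
      have hin1 : inside ends S e1 := inside_of_inc fun x hx => by
        rcases (hinc_e1 x).mp hx with h | h
        · exact (hmemS x).mpr (Or.inr (Or.inl h))
        · exact (hmemS x).mpr (Or.inr (Or.inr h))
      have hisum_ge : ∀ T : Finset E, (∀ e ∈ T, inside ends S e) →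
          ∑ e ∈ T, y e ≤ isum ends y S := by
        intro T hT
        unfold isum
        exact Finset.sum_le_sum_of_subset_of_nonneg
          (fun e he => Finset.mem_filter.mpr ⟨Finset.mem_univ _, hT e he⟩) (fun i _ _ => hy0 i)
      have hi1 : 1 ≤ isum ends y S := by
        have h1 := hisum_ge {e0, e1} (by
          intro e he
          rcases Finset.mem_insert.mp he with rfl | he
          · exact hin0
          · rw [Finset.mem_singleton] at he
            subst he
            exact hin1)
        rw [Finset.sum_pair he10.symm, hsum01] at h1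
        exact h1
      have hc1 : 1 ≤ csum ends y S := hyodd S hSU hodd
      have hcs : csum ends y S = 1 := by linarith
      have his : isum ends y S = 1 := by linarith
      have hUcard : U.card = 4 := by
        have h1 : ¬ (S.card + 3 ≤ U.card) := fun h =>
          hnt S hSU hodd (by omega) h hcs
        have h2 : S.card ≤ U.card := Finset.card_le_card hSU
        obtain ⟨k, hk⟩ := Q_even_card hV hyQ
        omega
      have hsd : (U \ S).card = 1 := by
        rw [Finset.card_sdiff_of_subset hSU]
        omega
      obtain ⟨t, ht⟩ := Finset.card_eq_one.mp hsd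
      have htmem : t ∈ U \ S := by
        rw [ht]
        simp
      have htU : t ∈ U := (Finset.mem_sdiff.mp htmem).1
      have htS : t ∉ S := (Finset.mem_sdiff.mp htmem).2
      have htu : t ≠ u := fun h => htS ((hmemS t).mpr (Or.inl h))
      have htv : t ≠ v := fun h => htS ((hmemS t).mpr (Or.inr (Or.inl h)))
      have htw : t ≠ w := fun h => htS ((hmemS t).mpr (Or.inr (Or.inr h)))
      have hUS : ∀ x ∈ U, x ∈ S ∨ x = t := by
        intro x hx
        by_cases hxS : x ∈ S
        · exact Or.inl hxS
        · right
          have : x ∈ U \ S := Finset.mem_sdiff.mpr ⟨hx, hxS⟩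
          rw [ht] at this
          exact Finset.mem_singleton.mp this
      -- no third active edge inside `S`
      have hthird : ∀ f ∈ A, inside ends S f → f = e0 ∨ f = e1 := by
        intro f hf hfin
        by_contra hcon'
        have hcon := not_or.mp hcon'
        have hT : ∑ e ∈ ({f, e0, e1} : Finset E), y e ≤ isum ends y S := hisum_ge _ (by
          intro e he
          rcases Finset.mem_insert.mp he with rfl | he
          · exact hfin
          · rcases Finset.mem_insert.mp he with rfl | he
            · exact hin0
            · rw [Finset.mem_singleton] at he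
              subst he
              exact hin1)
        rw [Finset.sum_insert (by simp [hcon.1, hcon.2]), Finset.sum_pair he10.symm] at hT
        have := hpos f hf
        linarith
      -- the second active edge at `u` ends at `t`
      obtain ⟨f, hf0, hstaru⟩ := exists_pair_of_card_two (hdegeq u huUf)
        (Finset.mem_filter.mpr ⟨he0, hinc0u⟩)
      have hfmem : f ∈ A.filter (fun e => inc ends e u) := by
        rw [hstaru]
        simp
      have hfA : f ∈ A := (Finset.mem_filter.mp hfmem).1
      have hincfu : inc ends f u := (Finset.mem_filter.mp hfmem).2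
      have hf1 : f ≠ e1 := fun h => hn1u (h ▸ hincfu)
      obtain ⟨a, haU, hau, hinc_f⟩ := exists_other_end hV hfA hincfu
      have hat : a = t := by
        rcases hUS a haU with haS | h
        · exfalso
          rcases (hmemS a).mp haS with h | h | h
          · exact hau h
          · have hfv : inc ends f v := (hinc_f v).mpr (Or.inr h.symm)
            rcases hstarv' f hfA hfv with h' | h'
            · exact hf0 h'
            · exact hf1 h'
          · have hfin : inside ends S f := inside_of_inc fun x hx => by
              rcases (hinc_f x).mp hx with h' | h'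
              · exact (hmemS x).mpr (Or.inl h')
              · exact (hmemS x).mpr (Or.inr (Or.inr (h'.trans h)))
            rcases hthird f hfA hfin with h' | h'
            · exact hf0 h'
            · exact hf1 h'
        · exact h
      subst hat
      -- the second active edge at `w` ends at `t`
      obtain ⟨f', hf'1, hstarw⟩ := exists_pair_of_card_two (hdegeq w hwUf)
        (Finset.mem_filter.mpr ⟨he1A, hinc1w⟩)
      have hf'mem : f' ∈ A.filter (fun e => inc ends e w) := by
        rw [hstarw]
        simp
      have hf'A : f' ∈ A := (Finset.mem_filter.mp hf'mem).1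
      have hincf'w : inc ends f' w := (Finset.mem_filter.mp hf'mem).2
      have hf'0 : f' ≠ e0 := fun h => hn0w (h ▸ hincf'w)
      obtain ⟨b, hbU, hbw, hinc_f'⟩ := exists_other_end hV hf'A hincf'w
      have hbt : b = a := by
        rcases hUS b hbU with hbS | h
        · exfalso
          rcases (hmemS b).mp hbS with h | h | h
          · have hfin : inside ends S f' := inside_of_inc fun x hx => by
              rcases (hinc_f' x).mp hx with h' | h'
              · exact (hmemS x).mpr (Or.inr (Or.inr h'))
              · exact (hmemS x).mpr (Or.inl (h'.trans h))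
            rcases hthird f' hf'A hfin with h' | h'
            · exact hf'0 h'
            · exact hf'1 h'
          · have hf'v : inc ends f' v := (hinc_f' v).mpr (Or.inr h.symm)
            rcases hstarv' f' hf'A hf'v with h' | h'
            · exact hf'0 h'
            · exact hf'1 h'
          · exact hbw h
        · exact h
      subst hbt
      refine ⟨chi {e0} - chi {f} + chi {f'} - chi {e1}, ?_, ?_, ?_⟩
      · intro h0
        have h1 := congrFun h0 e0
        simp [chi, he10.symm, hf0.symm, hf'0.symm] at h1
      · intro e he
        have h0 : e ≠ e0 := fun h => he (h ▸ he0)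
        have h1 : e ≠ e1 := fun h => he (h ▸ he1A)
        have h2 : e ≠ f := fun h => he (h ▸ hfA)
        have h3 : e ≠ f' := fun h => he (h ▸ hf'A)
        simp [chi, h0, h1, h2, h3]
      · intro x hx
        rw [vsum_sub, vsum_add, vsum_sub, vsum_chi_singleton, vsum_chi_singleton,
          vsum_chi_singleton, vsum_chi_singleton]
        simp only [hinc_e0 x, hinc_f x, hinc_f' x, hinc_e1 x]
        rcases hUS x hx with hxS | hxt
        · rcases (hmemS x).mp hxS with h | h | h
          · subst h
            simp [huv, huw, htu.symm]
          · subst h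
            simp [huv.symm, hwv.symm, htv.symm]
          · subst h
            simp [hwv, hwu, htw.symm]
        · subst hxt
          simp [htu, htv, htw]

end Crest.Agent.S0466.Helper63
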