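import Crest.Agent.Lib.S0466.Helper6Defs

/-!
# S0466 (helper6): contraction of a vertex set

`S` is contracted to its representative `s0 ∈ S`: endpoints in `S` are redirected to `s0`,
the active vertex set becomes `insert s0 (U \ S)` and the edges inside `S` become inactive.
-/

set_option autoImplicit false
set_option linter.unusedSectionVars false
set_option linter.unusedDecidableInType false
set_option linter.unnecessarySeqFocus false
set_option linter.unusedVariables false

namespace Crest.Agent.S0466

open Finset

variable {V E : Type*} [Fintype V] [DecidableEq V] [Fintype E] [DecidableEq E]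

/-- Retraction of `S` onto `s0`. -/
def rmap (S : Finset V) (s0 : V) : V → V := fun v => if v ∈ S then s0 else v

/-- Endpoint map of the contracted graph. -/
def cends (ends : E → V × V) (S : Finset V) (s0 : V) : E → V × V :=
  fun e => (rmap S s0 (ends e).1, rmap S s0 (ends e).2)

/-- Active vertices of the contracted graph. -/
def cU (U S : Finset V) (s0 : V) : Finset V := insert s0 (U \ S)

/-- Active edges of the contracted graph. -/
def cA (ends : E → V × V) (A : Finset E) (S : Finset V) : Finset E :=
  A.filter fun e => ¬ inside ends S e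

/-- Restriction of a vector to the contracted graph. -/
def cy (ends : E → V × V) (S : Finset V) (y : E → ℝ) : E → ℝ :=
  fun e => if inside ends S e then 0 else y e

/-- The subset of `U` corresponding to a subset `T'` of the contracted vertex set. -/
def liftSet (S : Finset V) (s0 : V) (T' : Finset V) : Finset V :=
  if s0 ∈ T' then T'.erase s0 ∪ S else T'

lemma rmap_of_mem {S : Finset V} {s0 a : V} (ha : a ∈ S) : rmap S s0 a = s0 := by
  simp [rmap, ha]

lemma rmap_of_not_mem {S : Finset V} {s0 a : V} (ha : a ∉ S) : rmap S s0 a = a := by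
  simp [rmap, ha]

lemma rmap_mem_iff {U S : Finset V} {s0 : V} (hs0 : s0 ∈ S) {T' : Finset V}
    (hT' : T' ⊆ cU U S s0) (a : V) : rmap S s0 a ∈ T' ↔ a ∈ liftSet S s0 T' := by
  unfold liftSet
  by_cases ha : a ∈ S
  · rw [rmap_of_mem ha]
    by_cases hs : s0 ∈ T'
    · simp [hs, ha]
    · simp only [hs, if_false, false_iff]
      intro haT
      have := hT' haT
      rw [cU, Finset.mem_insert, Finset.mem_sdiff] at this
      rcases this with h | h
      · exact hs (h ▸ haT)
      · exact h.2 ha
  · rw [rmap_of_not_mem ha]
    by_cases hs : s0 ∈ T'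
    · have hne : a ≠ s0 := fun h => ha (h ▸ hs0)
      simp [hs, ha, hne]
    · simp [hs]

lemma liftSet_subset {U S : Finset V} {s0 : V} (hSU : S ⊆ U) {T' : Finset V}
    (hT' : T' ⊆ cU U S s0) : liftSet S s0 T' ⊆ U := by
  unfold liftSet
  have h1 : T'.erase s0 ⊆ U := by
    intro a ha
    rw [Finset.mem_erase] at ha
    have := hT' ha.2
    rw [cU, Finset.mem_insert, Finset.mem_sdiff] at this
    rcases this with h | h
    · exact absurd h ha.1
    · exact h.1
  split_ifs with hs
  · exact Finset.union_subset h1 hSU
  · intro a ha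
    have := hT' ha
    rw [cU, Finset.mem_insert, Finset.mem_sdiff] at this
    rcases this with h | h
    · exact absurd (h ▸ ha) hs
    · exact h.1

lemma liftSet_odd {U S : Finset V} {s0 : V} (hodd : Odd S.card) {T' : Finset V}
    (hT' : T' ⊆ cU U S s0) (hT'odd : Odd T'.card) : Odd (liftSet S s0 T').card := by
  unfold liftSet
  split_ifs with hs
  · have hdisj : Disjoint (T'.erase s0) S := by
      rw [Finset.disjoint_left]
      intro a ha haS
      rw [Finset.mem_erase] at ha
      have := hT' ha.2
      rw [cU, Finset.mem_insert, Finset.mem_sdiff] at this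
      rcases this with h | h
      · exact ha.1 h
      · exact h.2 haS
    rw [Finset.card_union_of_disjoint hdisj, Finset.card_erase_of_mem hs]
    rcases hodd with ⟨k, hk⟩
    rcases hT'odd with ⟨l, hl⟩
    exact ⟨k + l, by omega⟩
  · exact hT'odd

lemma inside_not_crosses_liftSet {U S : Finset V} {s0 : V} (ends : E → V × V) {T' : Finset V}
    (hT' : T' ⊆ cU U S s0) (hs0 : s0 ∈ S) {e : E} (hin : inside ends S e) :
    ¬ crosses ends (liftSet S s0 T') e := by
  unfold liftSet
  unfold inside at hin
  unfold crosses
  split_ifs with hs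
  · simp [hin.1, hin.2]
  · have hnot : ∀ a, a ∈ S → a ∉ T' := by
      intro a ha haT
      have := hT' haT
      rw [cU, Finset.mem_insert, Finset.mem_sdiff] at this
      rcases this with h | h
      · exact hs (h ▸ haT)
      · exact h.2 ha
    simp [hnot _ hin.1, hnot _ hin.2]

lemma inc_cends_of_not_mem (ends : E → V × V) {S : Finset V} {s0 u : V} (hs0 : s0 ∈ S)
    (hu : u ∉ S) (e : E) : inc (cends ends S s0) e u ↔ inc ends e u := by
  have key : ∀ a, rmap S s0 a = u ↔ a = u := by
    intro a
    by_cases ha : a ∈ S
    · rw [rmap_of_mem ha]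
      constructor
      · intro h; exact absurd (h ▸ hs0) hu
      · intro h; exact absurd (h ▸ ha) hu
    · rw [rmap_of_not_mem ha]
  unfold inc cends
  simp only [key]

lemma inc_cends_self (ends : E → V × V) {S : Finset V} {s0 : V} (hs0 : s0 ∈ S) (e : E) :
    inc (cends ends S s0) e s0 ↔ ((ends e).1 ∈ S ∨ (ends e).2 ∈ S) := by
  have key : ∀ a, rmap S s0 a = s0 ↔ a ∈ S := by
    intro a
    by_cases ha : a ∈ S
    · simp [rmap_of_mem ha, ha]
    · rw [rmap_of_not_mem ha]
      constructor
      · intro h; exact absurd (h ▸ hs0) ha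
      · intro h; exact absurd h ha
  unfold inc cends
  simp only [key]

lemma valid_contract {ends : E → V × V} {U : Finset V} {A : Finset E} (hV : Valid ends U A)
    {S : Finset V} {s0 : V} (hs0 : s0 ∈ S) :
    Valid (cends ends S s0) (cU U S s0) (cA ends A S) := by
  intro e he
  rw [cA, Finset.mem_filter] at he
  obtain ⟨heA, hnin⟩ := he
  obtain ⟨h1, h2, hne⟩ := hV e heA
  have hmem : ∀ a, a ∈ U → rmap S s0 a ∈ cU U S s0 := by
    intro a ha
    by_cases haS : a ∈ S
    · rw [rmap_of_mem haS]; exact Finset.mem_insert_self _ _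
    · rw [rmap_of_not_mem haS]
      exact Finset.mem_insert_of_mem (Finset.mem_sdiff.mpr ⟨ha, haS⟩)
  refine ⟨hmem _ h1, hmem _ h2, ?_⟩
  unfold inside at hnin
  show rmap S s0 (ends e).1 ≠ rmap S s0 (ends e).2
  by_cases ha : (ends e).1 ∈ S
  · have hb : (ends e).2 ∉ S := fun hb => hnin ⟨ha, hb⟩
    rw [rmap_of_mem ha, rmap_of_not_mem hb]
    intro h; exact hb (h ▸ hs0)
  · rw [rmap_of_not_mem ha]
    by_cases hb : (ends e).2 ∈ S
    · rw [rmap_of_mem hb]
      intro h; exact ha (h ▸ hs0)
    · rw [rmap_of_not_mem hb]; exact hne

lemma card_cU {U S : Finset V} {s0 : V} (hSU : S ⊆ U) (hs0 : s0 ∈ S) :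
    (cU U S s0).card = U.card - S.card + 1 := by
  have h : s0 ∉ U \ S := by simp [hs0]
  rw [cU, Finset.card_insert_of_notMem h, Finset.card_sdiff_of_subset hSU]

lemma cy_of_not_inside {ends : E → V × V} {S : Finset V} (y : E → ℝ) {e : E}
    (h : ¬ inside ends S e) : cy ends S y e = y e := by
  simp [cy, h]

lemma cy_of_inside {ends : E → V × V} {S : Finset V} (y : E → ℝ) {e : E}
    (h : inside ends S e) : cy ends S y e = 0 := by
  simp [cy, h]

/-- The restriction of a point of `Q` with tight odd set `S` lies in `Q` of the contraction. -/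
lemma cy_mem_Q {ends : E → V × V} {U : Finset V} {A : Finset E} (hV : Valid ends U A)
    {S : Finset V} {s0 : V} (hSU : S ⊆ U) (hodd : Odd S.card) (hs0 : s0 ∈ S)
    {y : E → ℝ} (hy : y ∈ Q ends U A) (htight : csum ends y S = 1) :
    cy ends S y ∈ Q (cends ends S s0) (cU U S s0) (cA ends A S) := by
  obtain ⟨hy1, hy2, hy3, hy4⟩ := hy
  refine ⟨fun e => ?_, fun e he => ?_, fun u hu => ?_, fun T' hT' hT'odd => ?_⟩
  · unfold cy; split_ifs
    · exact le_refl _
    · exact hy1 e
  · by_cases hin : inside ends S e
    · exact cy_of_inside y hin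
    · rw [cy_of_not_inside y hin]
      apply hy2
      intro heA
      exact he (by rw [cA, Finset.mem_filter]; exact ⟨heA, hin⟩)
  · rw [cU, Finset.mem_insert] at hu
    rcases hu with rfl | hu
    · -- the contracted vertex
      rw [← htight]
      unfold vsum csum
      rw [Finset.sum_filter, Finset.sum_filter]
      refine Finset.sum_congr rfl fun e _ => ?_
      simp only [inc_cends_self ends hs0]
      unfold cy inside crosses
      by_cases ha : (ends e).1 ∈ S <;> by_cases hb : (ends e).2 ∈ S <;> simp [ha, hb]
    · rw [Finset.mem_sdiff] at hu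
      rw [← hy3 u hu.1]
      unfold vsum
      rw [Finset.sum_filter, Finset.sum_filter]
      refine Finset.sum_congr rfl fun e _ => ?_
      simp only [inc_cends_of_not_mem ends hs0 hu.2]
      by_cases hi : inc ends e u
      · have hnin : ¬ inside ends S e := by
          intro hin
          unfold inc at hi
          unfold inside at hin
          rcases hi with h | h
          · exact hu.2 (h ▸ hin.1)
          · exact hu.2 (h ▸ hin.2)
        simp [hi, cy_of_not_inside y hnin]
      · simp [hi]
  · have hge := hy4 (liftSet S s0 T') (liftSet_subset hSU hT') (liftSet_odd hodd hT' hT'odd)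
    refine le_trans hge (le_of_eq ?_)
    unfold csum
    rw [Finset.sum_filter, Finset.sum_filter]
    refine Finset.sum_congr rfl fun e _ => ?_
    have hiff : crosses (cends ends S s0) T' e ↔ crosses ends (liftSet S s0 T') e := by
      unfold crosses cends
      simp only [rmap_mem_iff hs0 hT']
    by_cases hc : crosses ends (liftSet S s0 T') e
    · have hnin : ¬ inside ends S e := fun hin =>
        inside_not_crosses_liftSet ends hT' hs0 hin hc
      simp [hc, hiff.mpr hc, cy_of_not_inside y hnin]
    · have : ¬ crosses (cends ends S s0) T' e := fun h => hc (hiff.mp h)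
      simp [hc, this]

/-- A perfect matching of the contraction has exactly one edge crossing `S`. -/
lemma IsPM.card_cross {ends : E → V × V} {U : Finset V} {A : Finset E}
    {S : Finset V} {s0 : V} (hs0 : s0 ∈ S) {M : Finset E}
    (hM : IsPM (cends ends S s0) (cU U S s0) (cA ends A S) M) :
    (M.filter fun e => crosses ends S e).card = 1 := by
  rw [← hM.2 s0 (Finset.mem_insert_self _ _)]
  congr 1
  refine Finset.filter_congr fun e he => ?_
  have hnin : ¬ inside ends S e := by
    have := hM.1 he
    rw [cA, Finset.mem_filter] at this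
    exact this.2
  rw [inc_cends_self ends hs0]
  unfold inside at hnin
  unfold crosses
  by_cases ha : (ends e).1 ∈ S <;> by_cases hb : (ends e).2 ∈ S <;> simp_all

end Crest.Agent.S0466
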