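import Mathlib

/-!
# S0466, package LB (helper88): gluing two direction spaces along a common edge set

Statement exactly as in `Crest/Agent/Lib/S0466/Helper6Spec.lean` (helper6).
-/

set_option autoImplicit false
set_option linter.unusedSectionVars false
set_option linter.unusedDecidableInType false

namespace Crest.Agent.S0466.Helper88

open Finset

variable {V E : Type*} [Fintype V] [DecidableEq V] [Fintype E] [DecidableEq E]

/-- PACKAGE LB (Mathlib only).  Gluing two direction spaces along a common edge set `D`: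
`K = {(h1, h2) ∈ L1 × L2 | h1 = h2 on D}` is the kernel of `(h1, h2) ↦ (h1 - h2)|_D`, whose range
lies in the sum-zero hyperplane of `D → ℝ` (dimension `|D| - 1`), and
`(h1, h2) ↦ fun e => if e ∈ A1 then h1 e else h2 e` is injective on `K`. -/
theorem exists_glued_subspace (A1 A2 D : Finset E) (hD : D.Nonempty) (hA : A1 ∩ A2 ⊆ D)
    (L1 L2 : Submodule ℝ (E → ℝ))
    (h1supp : ∀ h ∈ L1, ∀ e, e ∉ A1 → h e = 0) (h2supp : ∀ h ∈ L2, ∀ e, e ∉ A2 → h e = 0)
    (h1sum : ∀ h ∈ L1, ∑ e ∈ D, h e = 0) (h2sum : ∀ h ∈ L2, ∑ e ∈ D, h e = 0) :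
    ∃ L : Submodule ℝ (E → ℝ),
      (∀ h ∈ L, ∃ h1 ∈ L1, ∃ h2 ∈ L2, (∀ e ∈ D, h1 e = h2 e) ∧
          ∀ e, h e = if e ∈ A1 then h1 e else h2 e) ∧
      Module.finrank ℝ L1 + Module.finrank ℝ L2 + 1 ≤ Module.finrank ℝ L + D.card := by
  classical
  -- the difference on `D`
  let Ψ : (↥L1 × ↥L2) →ₗ[ℝ] (↥D → ℝ) :=
    { toFun := fun p d => p.1.1 d - p.2.1 d
      map_add' := by intro p q; funext d; simp; ring
      map_smul' := by intro c p; funext d; simp; ring }
  -- the sum functional on `D → ℝ`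
  let S : (↥D → ℝ) →ₗ[ℝ] ℝ :=
    { toFun := fun g => ∑ d, g d
      map_add' := by intro f g; simp [Finset.sum_add_distrib]
      map_smul' := by intro c f; simp [Finset.mul_sum] }
  -- the gluing map on the kernel of `Ψ`
  let T : ↥(LinearMap.ker Ψ) →ₗ[ℝ] (E → ℝ) :=
    { toFun := fun k e => if e ∈ A1 then k.1.1.1 e else k.1.2.1 e
      map_add' := by intro p q; funext e; by_cases h : e ∈ A1 <;> simp [h]
      map_smul' := by intro c p; funext e; by_cases h : e ∈ A1 <;> simp [h] }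
  have hΨ : ∀ p : ↥L1 × ↥L2, ∀ d : ↥D, Ψ p d = p.1.1 d - p.2.1 d := fun _ _ => rfl
  have hS : ∀ g : ↥D → ℝ, S g = ∑ d, g d := fun _ => rfl
  have hT : ∀ k : ↥(LinearMap.ker Ψ), ∀ e, T k e = if e ∈ A1 then k.1.1.1 e else k.1.2.1 e :=
    fun _ _ => rfl
  have hker : ∀ k : ↥(LinearMap.ker Ψ), ∀ e ∈ D, k.1.1.1 e = k.1.2.1 e := by
    intro k e he
    have h0 : Ψ k.1 = 0 := LinearMap.mem_ker.1 k.2
    have h1 := congrFun h0 ⟨e, he⟩
    rw [hΨ] at h1
    simpa using sub_eq_zero.1 h1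
  -- range of `Ψ` lies in the kernel of `S`
  have hrange : LinearMap.range Ψ ≤ LinearMap.ker S := by
    rintro g ⟨p, rfl⟩
    rw [LinearMap.mem_ker, hS]
    have e1 : ∑ d : ↥D, Ψ p d = ∑ e ∈ D, (p.1.1 e - p.2.1 e) := by
      rw [← Finset.sum_coe_sort D (fun e => p.1.1 e - p.2.1 e)]
      exact Finset.sum_congr rfl (fun d _ => hΨ p d)
    rw [e1, Finset.sum_sub_distrib, h1sum _ p.1.2, h2sum _ p.2.2, sub_zero]
  -- `S` is surjective
  have hSsurj : Function.Surjective S := by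
    obtain ⟨d0, hd0⟩ := hD
    intro c
    refine ⟨fun d => if d = ⟨d0, hd0⟩ then c else 0, ?_⟩
    rw [hS]
    simp
  have hdimS : Module.finrank ℝ ↥(LinearMap.ker S) + 1 = D.card := by
    have h := LinearMap.finrank_range_add_finrank_ker S
    rw [LinearMap.range_eq_top.2 hSsurj, finrank_top, Module.finrank_self,
      Module.finrank_fintype_fun_eq_card, Fintype.card_coe] at h
    omega
  have hdimΨ := LinearMap.finrank_range_add_finrank_ker Ψ
  have hle : Module.finrank ℝ ↥(LinearMap.range Ψ) ≤ Module.finrank ℝ ↥(LinearMap.ker S) :=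
    Submodule.finrank_mono hrange
  have hprod : Module.finrank ℝ (↥L1 × ↥L2) = Module.finrank ℝ L1 + Module.finrank ℝ L2 :=
    Module.finrank_prod
  -- injectivity of `T`
  have hkerT : ∀ k : ↥(LinearMap.ker Ψ), T k = 0 → k = 0 := by
    intro k hk
    have hk' : ∀ e, (if e ∈ A1 then k.1.1.1 e else k.1.2.1 e) = 0 := by
      intro e
      rw [← hT, hk]; rfl
    have z1 : k.1.1.1 = 0 := by
      funext e
      by_cases he : e ∈ A1
      · have := hk' e; rwa [if_pos he] at this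
      · exact h1supp _ k.1.1.2 e he
    have z2 : k.1.2.1 = 0 := by
      funext e
      by_cases he : e ∈ A1
      · by_cases he2 : e ∈ A2
        · have hd : e ∈ D := hA (Finset.mem_inter.2 ⟨he, he2⟩)
          rw [← hker k e hd, z1]
        · exact h2supp _ k.1.2.2 e he2
      · have := hk' e; rwa [if_neg he] at this
    apply Subtype.ext
    exact Prod.ext (Subtype.ext z1) (Subtype.ext z2)
  have hTinj : Function.Injective T := by
    have hb : LinearMap.ker T = ⊥ := LinearMap.ker_eq_bot'.2 hkerT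
    have hiff := @LinearMap.ker_eq_bot ℝ ℝ ↥(LinearMap.ker Ψ) (E → ℝ) _ _ _ _ _ _ _ T
    exact hiff.1 hb
  refine ⟨LinearMap.range T, ?_, ?_⟩
  · rintro h ⟨k, rfl⟩
    exact ⟨k.1.1.1, k.1.1.2, k.1.2.1, k.1.2.2, hker k, hT k⟩
  · rw [LinearMap.finrank_range_of_inj hTinj]
    omega

end Crest.Agent.S0466.Helper88
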