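import Crest.Agent.Lib.S0466.Helper6Glue
import Crest.Agent.Lib.S0466.Helper88LB

/-!
# S0466 (helper6): case B of the dimension induction (a nontrivial tight odd set)
-/

set_option autoImplicit false
set_option linter.unusedSectionVars false
set_option linter.unusedDecidableInType false
set_option linter.unnecessarySeqFocus false
set_option linter.unusedVariables false

namespace Crest.Agent.S0466

open Finset

variable {V E : Type*} [Fintype V] [DecidableEq V] [Fintype E] [DecidableEq E]

/-- Edge count of the two contractions. -/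
theorem card_cA_add {ends : E → V × V} {U : Finset V} {A : Finset E} (hV : Valid ends U A)
    (S : Finset V) :
    (cA ends A S).card + (cA ends A (U \ S)).card
      = A.card + (A.filter fun e => crosses ends S e).card := by
  have hunion : cA ends A S ∪ cA ends A (U \ S) = A := by
    ext e
    simp only [cA, Finset.mem_union, Finset.mem_filter]
    constructor
    · rintro (h | h)
      · exact h.1
      · exact h.1
    · intro he
      by_cases hin : inside ends S e
      · right
        refine ⟨he, fun hin2 => ?_⟩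
        unfold inside at hin hin2
        exact (Finset.mem_sdiff.mp hin2.1).2 hin.1
      · exact Or.inl ⟨he, hin⟩
  have hinter : cA ends A S ∩ cA ends A (U \ S) = A.filter fun e => crosses ends S e := by
    ext e
    simp only [cA, Finset.mem_inter, Finset.mem_filter]
    constructor
    · rintro ⟨⟨heA, hn1⟩, ⟨_, hn2⟩⟩
      obtain ⟨h1, h2, _⟩ := hV e heA
      refine ⟨heA, ?_⟩
      unfold inside at hn1 hn2
      unfold crosses
      simp only [Finset.mem_sdiff, h1, h2, true_and, not_and, not_not] at hn2
      by_cases ha : (ends e).1 ∈ S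
      · exact Or.inl ⟨ha, fun hb => hn1 ⟨ha, hb⟩⟩
      · exact Or.inr ⟨ha, hn2 ha⟩
    · rintro ⟨heA, hc⟩
      unfold crosses at hc
      refine ⟨⟨heA, ?_⟩, ⟨heA, ?_⟩⟩
      · unfold inside; tauto
      · unfold inside
        simp only [Finset.mem_sdiff]
        tauto
  rw [← Finset.card_union_add_card_inter, hunion, hinter]

/-- Case B of the dimension induction. -/
theorem dim_caseB {ends : E → V × V} {U : Finset V} {A : Finset E} (hV : Valid ends U A)
    {S : Finset V} (hSU : S ⊆ U) {s0 t0 : V} (hs0 : s0 ∈ S) (ht0 : t0 ∈ U \ S)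
    {x : E → ℝ} (hx : x ∈ Q ends U A) (htight : csum ends x S = 1)
    (L1 L2 : Submodule ℝ (E → ℝ))
    (hL1 : ∀ h ∈ L1, ∃ ε > 0, ∀ t : ℝ, |t| < ε →
      cy ends S x + t • h ∈ P (cends ends S s0) (cU U S s0) (cA ends A S))
    (hL2 : ∀ h ∈ L2, ∃ ε > 0, ∀ t : ℝ, |t| < ε →
      cy ends (U \ S) x + t • h ∈
        P (cends ends (U \ S) t0) (cU U (U \ S) t0) (cA ends A (U \ S))) :
    ∃ L : Submodule ℝ (E → ℝ),
      (∀ h ∈ L, ∃ ε > 0, ∀ t : ℝ, |t| < ε → x + t • h ∈ P ends U A) ∧
      Module.finrank ℝ L1 + Module.finrank ℝ L2 + 1 ≤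
        Module.finrank ℝ L + (A.filter fun e => crosses ends S e).card := by
  classical
  have hV1 : Valid (cends ends S s0) (cU U S s0) (cA ends A S) := valid_contract hV hs0
  have hV2 : Valid (cends ends (U \ S) t0) (cU U (U \ S) t0) (cA ends A (U \ S)) :=
    valid_contract hV ht0
  have hx0 : ∀ e, e ∉ A → x e = 0 := hx.2.1
  set D : Finset E := A.filter (fun e => crosses ends S e) with hD
  have hcy : ∀ (S' : Finset V) e, e ∉ cA ends A S' → cy ends S' x e = 0 := by
    intro S' e he
    by_cases hin : inside ends S' e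
    · exact cy_of_inside x hin
    · rw [cy_of_not_inside x hin]
      apply hx0
      intro heA
      exact he (by rw [cA, Finset.mem_filter]; exact ⟨heA, hin⟩)
  have htight2 : csum ends x (U \ S) = 1 := by
    rw [csum_compl hV x hx0 S]; exact htight
  -- supports
  have h1supp : ∀ h ∈ L1, ∀ e, e ∉ cA ends A S → h e = 0 := by
    intro h hh e he
    obtain ⟨ε, hε, hp⟩ := hL1 h hh
    have hmem := P_subset_Q hV1 (hp (ε / 2) (by rw [abs_of_pos (half_pos hε)]; linarith))
    have := hmem.2.1 e he
    simp only [Pi.add_apply, Pi.smul_apply, smul_eq_mul, hcy S e he, zero_add] at this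
    rcases mul_eq_zero.mp this with h0 | h0
    · linarith
    · exact h0
  have h2supp : ∀ h ∈ L2, ∀ e, e ∉ cA ends A (U \ S) → h e = 0 := by
    intro h hh e he
    obtain ⟨ε, hε, hp⟩ := hL2 h hh
    have hmem := P_subset_Q hV2 (hp (ε / 2) (by rw [abs_of_pos (half_pos hε)]; linarith))
    have := hmem.2.1 e he
    simp only [Pi.add_apply, Pi.smul_apply, smul_eq_mul, hcy (U \ S) e he, zero_add] at this
    rcases mul_eq_zero.mp this with h0 | h0
    · linarith
    · exact h0
  have hDfilter : ∀ h : E → ℝ, ∑ e ∈ D, h e = ∑ e ∈ Finset.univ.filter (fun e => e ∈ D), h e := by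
    intro h
    congr 1
    ext e
    simp
  -- sums over the cut
  have h1sum : ∀ h ∈ L1, ∑ e ∈ D, h e = 0 := by
    intro h hh
    obtain ⟨ε, hε, hp⟩ := hL1 h hh
    have hmem := P_subset_Q hV1 (hp (ε / 2) (by rw [abs_of_pos (half_pos hε)]; linarith))
    have hv := hmem.2.2.1 s0 (Finset.mem_insert_self _ _)
    rw [vsum_add, vsum_smul, vsum_cends_self ends hs0, htight] at hv
    have hv0 : vsum (cends ends S s0) h s0 = 0 := by
      have : ε / 2 * vsum (cends ends S s0) h s0 = 0 := by linarith
      rcases mul_eq_zero.mp this with h0 | h0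
      · linarith
      · exact h0
    rw [← hv0, hDfilter]
    unfold vsum
    refine sum_filter_congr_supp (cA ends A S) h (h1supp h hh) _ _ fun e he => ?_
    rw [cA, Finset.mem_filter] at he
    rw [inc_cends_self ends hs0, hD, Finset.mem_filter]
    have hnin := he.2
    unfold inside at hnin
    unfold crosses
    constructor
    · rintro ⟨_, hc⟩; tauto
    · intro hc; exact ⟨he.1, by tauto⟩
  have h2sum : ∀ h ∈ L2, ∑ e ∈ D, h e = 0 := by
    intro h hh
    obtain ⟨ε, hε, hp⟩ := hL2 h hh
    have hmem := P_subset_Q hV2 (hp (ε / 2) (by rw [abs_of_pos (half_pos hε)]; linarith))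
    have hv := hmem.2.2.1 t0 (Finset.mem_insert_self _ _)
    rw [vsum_add, vsum_smul, vsum_cends_self ends ht0, htight2] at hv
    have hv0 : vsum (cends ends (U \ S) t0) h t0 = 0 := by
      have : ε / 2 * vsum (cends ends (U \ S) t0) h t0 = 0 := by linarith
      rcases mul_eq_zero.mp this with h0 | h0
      · linarith
      · exact h0
    rw [← hv0, hDfilter]
    unfold vsum
    refine sum_filter_congr_supp (cA ends A (U \ S)) h (h2supp h hh) _ _ fun e he => ?_
    rw [cA, Finset.mem_filter] at he
    obtain ⟨h1, h2, _⟩ := hV e he.1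
    rw [inc_cends_self ends ht0, hD, Finset.mem_filter]
    have hnin := he.2
    unfold inside at hnin
    unfold crosses
    simp only [Finset.mem_sdiff, h1, h2, true_and] at hnin ⊢
    constructor
    · rintro ⟨_, hc⟩; tauto
    · intro hc; exact ⟨he.1, by tauto⟩
  -- the cut is nonempty
  have hDne : D.Nonempty := by
    by_contra hne
    rw [Finset.not_nonempty_iff_eq_empty] at hne
    have h0 : csum ends x S = 0 := by
      unfold csum
      apply Finset.sum_eq_zero
      intro e he
      rw [Finset.mem_filter] at he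
      by_cases heA : e ∈ A
      · exfalso
        have : e ∈ D := Finset.mem_filter.mpr ⟨heA, he.2⟩
        rw [hne] at this
        simp at this
      · exact hx0 e heA
    linarith
  have hA12 : cA ends A S ∩ cA ends A (U \ S) ⊆ D := by
    intro e he
    rw [Finset.mem_inter, cA, cA, Finset.mem_filter, Finset.mem_filter] at he
    obtain ⟨⟨heA, hn1⟩, ⟨_, hn2⟩⟩ := he
    obtain ⟨h1, h2, _⟩ := hV e heA
    rw [hD, Finset.mem_filter]
    refine ⟨heA, ?_⟩
    unfold inside at hn1 hn2
    unfold crosses
    simp only [Finset.mem_sdiff, h1, h2, true_and, not_and, not_not] at hn2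
    by_cases ha : (ends e).1 ∈ S
    · exact Or.inl ⟨ha, fun hb => hn1 ⟨ha, hb⟩⟩
    · exact Or.inr ⟨ha, hn2 ha⟩
  obtain ⟨L, hLglue, hLdim⟩ := Helper88.exists_glued_subspace (cA ends A S) (cA ends A (U \ S))
    D hDne hA12 L1 L2 h1supp h2supp h1sum h2sum
  refine ⟨L, fun h hh => ?_, hLdim⟩
  obtain ⟨g1, hg1, g2, hg2, hagree, hdef⟩ := hLglue h hh
  obtain ⟨ε1, hε1, hp1⟩ := hL1 g1 hg1
  obtain ⟨ε2, hε2, hp2⟩ := hL2 g2 hg2
  refine ⟨min ε1 ε2, lt_min hε1 hε2, fun t ht => ?_⟩
  have ht1 : |t| < ε1 := lt_of_lt_of_le ht (min_le_left _ _)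
  have ht2 : |t| < ε2 := lt_of_lt_of_le ht (min_le_right _ _)
  have hmemA1 : ∀ e, e ∈ cA ends A S → e ∈ A := fun e he => by
    rw [cA, Finset.mem_filter] at he; exact he.1
  have hmemA2 : ∀ e, e ∈ cA ends A (U \ S) → e ∈ A := fun e he => by
    rw [cA, Finset.mem_filter] at he; exact he.1
  apply glue hV hSU hs0 ht0
  · intro e he
    have he1 : e ∉ cA ends A S := fun h' => he (hmemA1 e h')
    have he2 : e ∉ cA ends A (U \ S) := fun h' => he (hmemA2 e h')
    simp [hx0 e he, hdef e, he1, h2supp g2 hg2 e he2]
  · have hEq : cy ends S (x + t • h) = cy ends S x + t • g1 := by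
      funext e
      by_cases hin : inside ends S e
      · have he1 : e ∉ cA ends A S := fun h' => by
          rw [cA, Finset.mem_filter] at h'; exact h'.2 hin
        simp [cy, hin, h1supp g1 hg1 e he1]
      · have hh : h e = g1 e := by
          rw [hdef e]
          by_cases he1 : e ∈ cA ends A S
          · simp [he1]
          · have heA : e ∉ A := fun h' => he1 (by rw [cA, Finset.mem_filter]; exact ⟨h', hin⟩)
            have he2 : e ∉ cA ends A (U \ S) := fun h' => heA (hmemA2 e h')
            simp [he1, h1supp g1 hg1 e he1, h2supp g2 hg2 e he2]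
        simp [cy, hin, hh]
    rw [hEq]
    exact hp1 t ht1
  · have hEq : cy ends (U \ S) (x + t • h) = cy ends (U \ S) x + t • g2 := by
      funext e
      by_cases hin : inside ends (U \ S) e
      · have he2 : e ∉ cA ends A (U \ S) := fun h' => by
          rw [cA, Finset.mem_filter] at h'; exact h'.2 hin
        simp [cy, hin, h2supp g2 hg2 e he2]
      · have hh : h e = g2 e := by
          rw [hdef e]
          by_cases he1 : e ∈ cA ends A S
          · have heA : e ∈ A := hmemA1 e he1
            have he2 : e ∈ cA ends A (U \ S) := by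
              rw [cA, Finset.mem_filter]; exact ⟨heA, hin⟩
            have heD : e ∈ D := hA12 (Finset.mem_inter.mpr ⟨he1, he2⟩)
            simp [he1, hagree e heD]
          · simp [he1]
        simp [cy, hin, hh]
    rw [hEq]
    exact hp2 t ht2

end Crest.Agent.S0466
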