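import Mathlib

/-!
# S0466 (helper6): multigraphs with an active vertex set and an active edge set

Fixed types `V` (vertices) and `E` (edges), an endpoint map `ends : E → V × V`, an active vertex
set `U : Finset V` and an active edge set `A : Finset E`.  Contraction of a vertex set changes
`ends`, `U` and `A` but not the types.

* `P ends U A` : convex hull of the indicator vectors of perfect matchings `M ⊆ A` of `U`.
* `Q ends U A` : Edmonds' polyhedron (nonnegativity, zero off `A`, degree equations on `U`,
  odd-set inequalities for odd `S ⊆ U`).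
-/

set_option autoImplicit false
set_option linter.unusedSectionVars false
set_option linter.unusedDecidableInType false
set_option linter.unnecessarySeqFocus false

namespace Crest.Agent.S0466

open Finset

variable {V E : Type*} [Fintype V] [DecidableEq V] [Fintype E] [DecidableEq E]

/-- The edge `e` is incident to the vertex `v`. -/
def inc (ends : E → V × V) (e : E) (v : V) : Prop := (ends e).1 = v ∨ (ends e).2 = v

instance instDecInc (ends : E → V × V) (e : E) (v : V) : Decidable (inc ends e v) := by
  unfold inc; infer_instance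

/-- The edge `e` has exactly one endpoint in `S`. -/
def crosses (ends : E → V × V) (S : Finset V) (e : E) : Prop :=
  ((ends e).1 ∈ S ∧ (ends e).2 ∉ S) ∨ ((ends e).1 ∉ S ∧ (ends e).2 ∈ S)

instance instDecCrosses (ends : E → V × V) (S : Finset V) (e : E) :
    Decidable (crosses ends S e) := by
  unfold crosses; infer_instance

/-- The edge `e` has both endpoints in `S`. -/
def inside (ends : E → V × V) (S : Finset V) (e : E) : Prop :=
  (ends e).1 ∈ S ∧ (ends e).2 ∈ S

instance instDecInside (ends : E → V × V) (S : Finset V) (e : E) :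
    Decidable (inside ends S e) := by
  unfold inside; infer_instance

/-- Active edges have two distinct endpoints, both active. -/
def Valid (ends : E → V × V) (U : Finset V) (A : Finset E) : Prop :=
  ∀ e ∈ A, (ends e).1 ∈ U ∧ (ends e).2 ∈ U ∧ (ends e).1 ≠ (ends e).2

/-- `M` is a perfect matching of the active vertices using active edges. -/
def IsPM (ends : E → V × V) (U : Finset V) (A : Finset E) (M : Finset E) : Prop :=
  M ⊆ A ∧ ∀ u ∈ U, (M.filter fun e => inc ends e u).card = 1

/-- Indicator vector of an edge set. -/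
def chi (M : Finset E) : E → ℝ := fun e => if e ∈ M then 1 else 0

/-- The perfect matching polytope. -/
def P (ends : E → V × V) (U : Finset V) (A : Finset E) : Set (E → ℝ) :=
  convexHull ℝ (chi '' {M : Finset E | IsPM ends U A M})

/-- Sum of `y` over the edges incident to `u`. -/
def vsum (ends : E → V × V) (y : E → ℝ) (u : V) : ℝ :=
  ∑ e ∈ univ.filter (fun e => inc ends e u), y e

/-- Sum of `y` over the edges crossing `S`. -/
def csum (ends : E → V × V) (y : E → ℝ) (S : Finset V) : ℝ :=
  ∑ e ∈ univ.filter (fun e => crosses ends S e), y e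

/-- Sum of `y` over the edges inside `S`. -/
def isum (ends : E → V × V) (y : E → ℝ) (S : Finset V) : ℝ :=
  ∑ e ∈ univ.filter (fun e => inside ends S e), y e

/-- Edmonds' polyhedron. -/
def Q (ends : E → V × V) (U : Finset V) (A : Finset E) : Set (E → ℝ) :=
  {y | (∀ e, 0 ≤ y e) ∧ (∀ e, e ∉ A → y e = 0) ∧ (∀ u ∈ U, vsum ends y u = 1) ∧
       ∀ S, S ⊆ U → Odd S.card → 1 ≤ csum ends y S}

/-! ### linearity -/

omit [DecidableEq E] in
lemma vsum_add (ends : E → V × V) (y z : E → ℝ) (u : V) :
    vsum ends (y + z) u = vsum ends y u + vsum ends z u := by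
  simp [vsum, Finset.sum_add_distrib]

omit [DecidableEq E] in
lemma vsum_smul (ends : E → V × V) (t : ℝ) (y : E → ℝ) (u : V) :
    vsum ends (t • y) u = t * vsum ends y u := by
  simp [vsum, Finset.mul_sum]

omit [DecidableEq E] in
lemma csum_add (ends : E → V × V) (y z : E → ℝ) (S : Finset V) :
    csum ends (y + z) S = csum ends y S + csum ends z S := by
  simp [csum, Finset.sum_add_distrib]

omit [DecidableEq E] in
lemma csum_smul (ends : E → V × V) (t : ℝ) (y : E → ℝ) (S : Finset V) :
    csum ends (t • y) S = t * csum ends y S := by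
  simp [csum, Finset.mul_sum]

omit [DecidableEq E] in
lemma vsum_zero (ends : E → V × V) (u : V) : vsum ends (0 : E → ℝ) u = 0 := by
  simp [vsum]

omit [DecidableEq E] in
lemma vsum_neg (ends : E → V × V) (y : E → ℝ) (u : V) :
    vsum ends (-y) u = - vsum ends y u := by
  simp [vsum]

omit [DecidableEq E] in
lemma vsum_sub (ends : E → V × V) (y z : E → ℝ) (u : V) :
    vsum ends (y - z) u = vsum ends y u - vsum ends z u := by
  simp [vsum, Finset.sum_sub_distrib]

/-! ### sums of functions supported on `A` -/

omit [Fintype V] [DecidableEq V] [DecidableEq E] in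
/-- Two filtered sums of a function vanishing off `A` agree if the predicates agree on `A`. -/
lemma sum_filter_congr_supp (A : Finset E) (y : E → ℝ) (hy : ∀ e, e ∉ A → y e = 0)
    (p q : E → Prop) [DecidablePred p] [DecidablePred q] (hpq : ∀ e ∈ A, (p e ↔ q e)) :
    ∑ e ∈ univ.filter p, y e = ∑ e ∈ univ.filter q, y e := by
  rw [Finset.sum_filter, Finset.sum_filter]
  refine Finset.sum_congr rfl fun e _ => ?_
  by_cases he : e ∈ A
  · have := hpq e he
    by_cases hp : p e
    · simp [hp, this.mp hp]
    · have hq : ¬ q e := fun h => hp (this.mpr h)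
      simp [hp, hq]
  · simp [hy e he]

omit [Fintype V] [DecidableEq E] in
/-- For a valid edge, crossing `{u}` means being incident to `u`. -/
lemma crosses_singleton {ends : E → V × V} {U : Finset V} {A : Finset E}
    (hV : Valid ends U A) {e : E} (he : e ∈ A) (u : V) :
    crosses ends {u} e ↔ inc ends e u := by
  have hne := (hV e he).2.2
  unfold crosses inc
  simp only [Finset.mem_singleton]
  constructor
  · rintro (⟨h1, _⟩ | ⟨_, h2⟩)
    · exact Or.inl h1
    · exact Or.inr h2
  · rintro (h1 | h2)
    · exact Or.inl ⟨h1, fun h => hne (h1.trans h.symm)⟩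
    · exact Or.inr ⟨fun h => hne (h.trans h2.symm), h2⟩

omit [DecidableEq E] in
lemma csum_singleton {ends : E → V × V} {U : Finset V} {A : Finset E}
    (hV : Valid ends U A) (y : E → ℝ) (hy : ∀ e, e ∉ A → y e = 0) (u : V) :
    csum ends y {u} = vsum ends y u := by
  unfold csum vsum
  exact sum_filter_congr_supp A y hy _ _ fun e he => crosses_singleton hV he u

omit [Fintype V] [DecidableEq E] in
/-- For a valid edge and `S ⊆ U`, crossing `U \ S` means crossing `S`. -/
lemma crosses_compl {ends : E → V × V} {U : Finset V} {A : Finset E}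
    (hV : Valid ends U A) {e : E} (he : e ∈ A) (S : Finset V) :
    crosses ends (U \ S) e ↔ crosses ends S e := by
  obtain ⟨h1, h2, _⟩ := hV e he
  unfold crosses
  simp only [Finset.mem_sdiff, h1, h2, true_and, not_not]
  tauto

omit [DecidableEq E] in
lemma csum_compl {ends : E → V × V} {U : Finset V} {A : Finset E}
    (hV : Valid ends U A) (y : E → ℝ) (hy : ∀ e, e ∉ A → y e = 0) (S : Finset V) :
    csum ends y (U \ S) = csum ends y S := by
  unfold csum
  exact sum_filter_congr_supp A y hy _ _ fun e he => crosses_compl hV he S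

omit [DecidableEq E] in
/-- No valid edge crosses `U`. -/
lemma csum_self {ends : E → V × V} {U : Finset V} {A : Finset E}
    (hV : Valid ends U A) (y : E → ℝ) (hy : ∀ e, e ∉ A → y e = 0) :
    csum ends y U = 0 := by
  unfold csum
  rw [sum_filter_congr_supp A y hy _ (fun _ => False) (fun e he => ?_)]
  · simp
  · obtain ⟨h1, h2, _⟩ := hV e he
    unfold crosses
    simp [h1, h2]

/-- Double counting: the degree sums over `S` count crossing edges once, inside edges twice. -/
lemma sum_vsum_eq {ends : E → V × V} {U : Finset V} {A : Finset E}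
    (hV : Valid ends U A) (y : E → ℝ) (hy : ∀ e, e ∉ A → y e = 0) (S : Finset V) :
    ∑ u ∈ S, vsum ends y u = csum ends y S + 2 * isum ends y S := by
  unfold vsum csum isum
  simp_rw [Finset.sum_filter]
  rw [Finset.sum_comm, Finset.mul_sum, ← Finset.sum_add_distrib]
  refine Finset.sum_congr rfl fun e _ => ?_
  by_cases he : e ∈ A
  · obtain ⟨_, _, hne⟩ := hV e he
    have key : ∑ u ∈ S, (if inc ends e u then y e else 0)
        = (if (ends e).1 ∈ S then y e else 0) + (if (ends e).2 ∈ S then y e else 0) := by
      have h1 : ∀ u, (if inc ends e u then y e else 0)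
          = (if u = (ends e).1 then y e else 0) + (if u = (ends e).2 then y e else 0) := by
        intro u
        unfold inc
        by_cases ha : u = (ends e).1
        · have hb : u ≠ (ends e).2 := fun h => hne (ha.symm.trans h)
          simp [ha, hne]
        · by_cases hb : u = (ends e).2
          · simp [hb, Ne.symm hne]
          · simp [ha, hb, Ne.symm ha, Ne.symm hb]
      simp_rw [h1]
      rw [Finset.sum_add_distrib]
      simp [Finset.sum_ite_eq']
    rw [key]
    unfold crosses inside
    by_cases ha : (ends e).1 ∈ S <;> by_cases hb : (ends e).2 ∈ S <;> simp [ha, hb] <;> ring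
  · simp [hy e he]

/-! ### indicator vectors -/

omit [Fintype E] in
lemma chi_apply (M : Finset E) (e : E) : chi M e = if e ∈ M then 1 else 0 := rfl

lemma sum_filter_chi (M : Finset E) (p : E → Prop) [DecidablePred p] :
    ∑ e ∈ univ.filter p, chi M e = ((M.filter p).card : ℝ) := by
  unfold chi
  rw [Finset.sum_ite_mem, Finset.card_eq_sum_ones, Nat.cast_sum]
  simp only [Nat.cast_one]
  refine Finset.sum_congr ?_ fun _ _ => rfl
  ext e
  simp [and_comm]

lemma vsum_chi (ends : E → V × V) (M : Finset E) (u : V) :
    vsum ends (chi M) u = ((M.filter fun e => inc ends e u).card : ℝ) :=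
  sum_filter_chi M _

lemma csum_chi (ends : E → V × V) (M : Finset E) (S : Finset V) :
    csum ends (chi M) S = ((M.filter fun e => crosses ends S e).card : ℝ) :=
  sum_filter_chi M _

lemma isum_chi (ends : E → V × V) (M : Finset E) (S : Finset V) :
    isum ends (chi M) S = ((M.filter fun e => inside ends S e).card : ℝ) :=
  sum_filter_chi M _

/-! ### `P ⊆ Q` -/

omit [DecidableEq E] in
lemma convex_Q (ends : E → V × V) (U : Finset V) (A : Finset E) : Convex ℝ (Q ends U A) := by
  intro y hy z hz a b ha hb hab
  obtain ⟨hy1, hy2, hy3, hy4⟩ := hy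
  obtain ⟨hz1, hz2, hz3, hz4⟩ := hz
  refine ⟨fun e => ?_, fun e he => ?_, fun u hu => ?_, fun S hS hodd => ?_⟩
  · simp only [Pi.add_apply, Pi.smul_apply, smul_eq_mul]
    have := hy1 e; have := hz1 e; positivity
  · simp [hy2 e he, hz2 e he]
  · rw [vsum_add, vsum_smul, vsum_smul, hy3 u hu, hz3 u hu]; linarith
  · rw [csum_add, csum_smul, csum_smul]
    have h1 := hy4 S hS hodd
    have h2 := hz4 S hS hodd
    nlinarith

lemma chi_mem_Q {ends : E → V × V} {U : Finset V} {A : Finset E} (hV : Valid ends U A)
    {M : Finset E} (hM : IsPM ends U A M) : chi M ∈ Q ends U A := by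
  have hsupp : ∀ e, e ∉ A → chi M e = 0 := by
    intro e he
    have : e ∉ M := fun h => he (hM.1 h)
    simp [chi, this]
  refine ⟨fun e => ?_, hsupp, fun u hu => ?_, fun S hS hodd => ?_⟩
  · unfold chi; split_ifs <;> norm_num
  · rw [vsum_chi, hM.2 u hu]; norm_num
  · have h := sum_vsum_eq hV (chi M) hsupp S
    have h1 : ∑ u ∈ S, vsum ends (chi M) u = (S.card : ℝ) := by
      rw [Finset.sum_congr rfl (fun u hu => by rw [vsum_chi, hM.2 u (hS hu)])]
      simp
    rw [h1, csum_chi, isum_chi] at h
    rw [csum_chi]
    have h2 : S.card = (M.filter fun e => crosses ends S e).card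
        + 2 * (M.filter fun e => inside ends S e).card := by exact_mod_cast h
    have h3 : 1 ≤ (M.filter fun e => crosses ends S e).card := by
      rcases hodd with ⟨k, hk⟩
      omega
    exact_mod_cast h3

lemma P_subset_Q {ends : E → V × V} {U : Finset V} {A : Finset E} (hV : Valid ends U A) :
    P ends U A ⊆ Q ends U A := by
  refine convexHull_min ?_ (convex_Q ends U A)
  rintro _ ⟨M, hM, rfl⟩
  exact chi_mem_Q hV hM

/-! ### basic facts about `Q` -/

omit [DecidableEq E] in
lemma Q_even_card {ends : E → V × V} {U : Finset V} {A : Finset E} (hV : Valid ends U A)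
    {y : E → ℝ} (hy : y ∈ Q ends U A) : Even U.card := by
  by_contra h
  have hodd : Odd U.card := Nat.not_even_iff_odd.mp h
  have := hy.2.2.2 U (Finset.Subset.refl U) hodd
  rw [csum_self hV y hy.2.1] at this
  linarith

omit [DecidableEq E] in
lemma Q_le_one {ends : E → V × V} {U : Finset V} {A : Finset E} (hV : Valid ends U A)
    {y : E → ℝ} (hy : y ∈ Q ends U A) (e : E) : y e ≤ 1 := by
  by_cases he : e ∈ A
  · have hu := (hV e he).1
    rw [← hy.2.2.1 _ hu]
    unfold vsum
    refine Finset.single_le_sum (f := y) (fun i _ => hy.1 i) ?_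
    rw [Finset.mem_filter]
    exact ⟨Finset.mem_univ _, Or.inl rfl⟩
  · rw [hy.2.1 e he]; norm_num

omit [DecidableEq E] in
lemma Q_mono_supp {ends : E → V × V} {U : Finset V} {A A' : Finset E}
    {y : E → ℝ} (hy : y ∈ Q ends U A) (h : ∀ e, e ∉ A' → y e = 0) : y ∈ Q ends U A' :=
  ⟨hy.1, h, hy.2.2.1, hy.2.2.2⟩

omit [Fintype V] [Fintype E] [DecidableEq E] in
lemma IsPM.mono {ends : E → V × V} {U : Finset V} {A A' : Finset E} (hAA : A ⊆ A')
    {M : Finset E} (hM : IsPM ends U A M) : IsPM ends U A' M :=
  ⟨hM.1.trans hAA, hM.2⟩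

omit [Fintype V] in
lemma P_mono {ends : E → V × V} {U : Finset V} {A A' : Finset E} (hAA : A ⊆ A') :
    P ends U A ⊆ P ends U A' := by
  refine convexHull_mono ?_
  rintro _ ⟨M, hM, rfl⟩
  exact ⟨M, hM.mono hAA, rfl⟩

omit [Fintype V] in
lemma isClosed_P (ends : E → V × V) (U : Finset V) (A : Finset E) : IsClosed (P ends U A) :=
  ((Set.toFinite {M : Finset E | IsPM ends U A M}).image chi).isClosed_convexHull ℝ

omit [DecidableEq E] in
lemma isCompact_Q {ends : E → V × V} {U : Finset V} {A : Finset E} (hV : Valid ends U A) :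
    IsCompact (Q ends U A) := by
  have hcl : IsClosed (Q ends U A) := by
    have h1 : IsClosed {y : E → ℝ | ∀ e, 0 ≤ y e} := by
      simp only [Set.ofPred_forall]
      exact isClosed_iInter fun e => isClosed_le continuous_const (continuous_apply e)
    have h2 : IsClosed {y : E → ℝ | ∀ e, e ∉ A → y e = 0} := by
      simp only [Set.ofPred_forall]
      exact isClosed_iInter fun e => isClosed_iInter fun _ =>
        isClosed_eq (continuous_apply e) continuous_const
    have hv : ∀ u, Continuous fun y : E → ℝ => vsum ends y u := fun u =>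
      continuous_finsetSum _ fun e _ => continuous_apply e
    have hc : ∀ S, Continuous fun y : E → ℝ => csum ends y S := fun S =>
      continuous_finsetSum _ fun e _ => continuous_apply e
    have h3 : IsClosed {y : E → ℝ | ∀ u ∈ U, vsum ends y u = 1} := by
      simp only [Set.ofPred_forall]
      exact isClosed_iInter fun u => isClosed_iInter fun _ =>
        isClosed_eq (hv u) continuous_const
    have h4 : IsClosed {y : E → ℝ | ∀ S, S ⊆ U → Odd S.card → 1 ≤ csum ends y S} := by
      simp only [Set.ofPred_forall]
      exact isClosed_iInter fun S => isClosed_iInter fun _ => isClosed_iInter fun _ =>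
        isClosed_le continuous_const (hc S)
    have hQ : Q ends U A = (({y : E → ℝ | ∀ e, 0 ≤ y e} ∩ {y : E → ℝ | ∀ e, e ∉ A → y e = 0})
        ∩ {y : E → ℝ | ∀ u ∈ U, vsum ends y u = 1})
        ∩ {y : E → ℝ | ∀ S, S ⊆ U → Odd S.card → 1 ≤ csum ends y S} := by
      ext y; simp only [Q, Set.mem_inter_iff, Set.mem_ofPred_eq]; tauto
    rw [hQ]
    exact ((h1.inter h2).inter h3).inter h4
  refine Metric.isCompact_of_isClosed_isBounded hcl ?_
  refine (Metric.isBounded_Icc (0 : E → ℝ) 1).subset ?_
  intro y hy
  exact ⟨fun e => hy.1 e, fun e => Q_le_one hV hy e⟩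

end Crest.Agent.S0466
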