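import Crest.Agent.Lib.S0466.Helper6Defs

/-!
# S0466 (helper92): extreme points of Edmonds' polyhedron without nontrivial tight odd sets

* `Q_subset_P_of_extreme` : Krein–Milman reduction, `Q ⊆ P` as soon as every extreme point of `Q`
  lies in `P`.
* `exists_perturbation` : a vector `h` supported on `A` with zero vertex sums can be added to and
  subtracted from `y ∈ Q` (positive on `A`, no nontrivial tight odd set) after scaling.
* `extreme_eq_one_of_no_tight`, `extreme_is_matching` : an extreme point of `Q`, positive on `A`,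
  without nontrivial tight odd set, is the indicator vector of the perfect matching `A`
  (package K, the kernel vector, enters as the explicit hypothesis `K`).
-/

set_option autoImplicit false
set_option linter.unusedSectionVars false
set_option linter.unusedDecidableInType false

namespace Crest.Agent.S0466.Helper92

open Finset Crest.Agent.S0466

variable {V E : Type*} [Fintype V] [DecidableEq V] [Fintype E] [DecidableEq E]

/-- Krein–Milman reduction. -/
theorem Q_subset_P_of_extreme {ends : E → V × V} {U : Finset V} {A : Finset E}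
    (hV : Valid ends U A)
    (h : ∀ y ∈ (Q ends U A).extremePoints ℝ, y ∈ P ends U A) : Q ends U A ⊆ P ends U A := by
  have hK := closure_convexHull_extremePoints (isCompact_Q hV) (convex_Q ends U A)
  rw [← hK]
  refine closure_minimal ?_ (isClosed_P ends U A)
  refine convexHull_min h ?_
  unfold P
  exact convex_convexHull ℝ _

omit [DecidableEq E] in
/-- A common positive lower bound for finitely many positive numbers. -/
theorem exists_pos_le {ι : Type*} [Finite ι] (δ : ι → ℝ) (hδ : ∀ i, 0 < δ i) :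
    ∃ ε : ℝ, 0 < ε ∧ ∀ i, ε ≤ δ i := by
  rcases isEmpty_or_nonempty ι with hι | hι
  · exact ⟨1, one_pos, fun i => (hι.false i).elim⟩
  · obtain ⟨i0, hi0⟩ := Finite.exists_min δ
    exact ⟨δ i0, hδ i0, hi0⟩

omit [DecidableEq E] in
/-- csum of a vector with zero vertex sums vanishes on a tight odd set when there is no
nontrivial tight odd set. -/
theorem csum_eq_zero_of_tight {ends : E → V × V} {U : Finset V} {A : Finset E}
    (hV : Valid ends U A) {y : E → ℝ} (hy : y ∈ Q ends U A)
    (hnt : ∀ S, S ⊆ U → Odd S.card → 3 ≤ S.card → S.card + 3 ≤ U.card → csum ends y S ≠ 1)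
    {h : E → ℝ} (hsupp : ∀ e, e ∉ A → h e = 0) (hv : ∀ u ∈ U, vsum ends h u = 0)
    {S : Finset V} (hS : S ⊆ U) (hodd : Odd S.card) (htight : csum ends y S = 1) :
    csum ends h S = 0 := by
  have heven := Q_even_card hV hy
  have hcard : S.card ≤ U.card := Finset.card_le_card hS
  by_cases h3 : 3 ≤ S.card
  · have h4 : ¬ S.card + 3 ≤ U.card := fun h4 => hnt S hS hodd h3 h4 htight
    have h5 : (U \ S).card = 1 := by
      rw [Finset.card_sdiff_of_subset hS]
      rcases hodd with ⟨a, ha⟩
      rcases heven with ⟨b, hb⟩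
      omega
    obtain ⟨u, hu⟩ := Finset.card_eq_one.mp h5
    have huU : u ∈ U := by
      have : u ∈ U \ S := by rw [hu]; exact Finset.mem_singleton_self u
      exact (Finset.mem_sdiff.mp this).1
    rw [← csum_compl hV h hsupp S, hu, csum_singleton hV h hsupp u]
    exact hv u huU
  · have h1 : S.card = 1 := by
      rcases hodd with ⟨a, ha⟩
      omega
    obtain ⟨u, hu⟩ := Finset.card_eq_one.mp h1
    have huU : u ∈ U := hS (by rw [hu]; exact Finset.mem_singleton_self u)
    rw [hu, csum_singleton hV h hsupp u]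
    exact hv u huU

omit [DecidableEq E] in
/-- Two-sided perturbation inside `Q`. -/
theorem exists_perturbation {ends : E → V × V} {U : Finset V} {A : Finset E}
    (hV : Valid ends U A) {y : E → ℝ} (hy : y ∈ Q ends U A) (hpos : ∀ e ∈ A, 0 < y e)
    (hnt : ∀ S, S ⊆ U → Odd S.card → 3 ≤ S.card → S.card + 3 ≤ U.card → csum ends y S ≠ 1)
    {h : E → ℝ} (hsupp : ∀ e, e ∉ A → h e = 0) (hv : ∀ u ∈ U, vsum ends h u = 0) :
    ∃ ε : ℝ, 0 < ε ∧ ∀ t : ℝ, |t| ≤ ε → y + t • h ∈ Q ends U A := by
  classical
  obtain ⟨hy1, hy2, hy3, hy4⟩ := hy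
  -- the finitely many positive thresholds
  let δ : E ⊕ Finset V → ℝ := fun i =>
    match i with
    | Sum.inl e => if e ∈ A then y e / (|h e| + 1) else 1
    | Sum.inr S => if 1 < csum ends y S then (csum ends y S - 1) / (|csum ends h S| + 1) else 1
  have hδ : ∀ i, 0 < δ i := by
    rintro (e | S)
    · show 0 < (if e ∈ A then y e / (|h e| + 1) else 1)
      split_ifs with he
      · exact div_pos (hpos e he) (by positivity)
      · exact one_pos
    · show 0 < (if 1 < csum ends y S then (csum ends y S - 1) / (|csum ends h S| + 1) else 1)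
      split_ifs with hS
      · exact div_pos (by linarith) (by positivity)
      · exact one_pos
  obtain ⟨ε, hε, hle⟩ := exists_pos_le δ hδ
  refine ⟨ε, hε, fun t ht => ⟨fun e => ?_, fun e he => ?_, fun u hu => ?_, fun S hS hodd => ?_⟩⟩
  · -- nonnegativity
    simp only [Pi.add_apply, Pi.smul_apply, smul_eq_mul]
    by_cases he : e ∈ A
    · have h1 : ε ≤ y e / (|h e| + 1) := by
        have := hle (Sum.inl e)
        simpa [δ, he] using this
      have h2 : |t * h e| ≤ y e := by
        rw [abs_mul]
        have hpos1 : (0 : ℝ) < |h e| + 1 := by positivity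
        have h3 : |t| * (|h e| + 1) ≤ y e := by
          have := mul_le_mul_of_nonneg_right (ht.trans h1) hpos1.le
          rwa [div_mul_cancel₀ _ hpos1.ne'] at this
        nlinarith [abs_nonneg t, abs_nonneg (h e)]
      have := neg_abs_le (t * h e)
      linarith
    · rw [hy2 e he, hsupp e he]
      simp
  · simp only [Pi.add_apply, Pi.smul_apply, smul_eq_mul]
    rw [hy2 e he, hsupp e he]
    simp
  · rw [vsum_add, vsum_smul, hy3 u hu, hv u hu]
    ring
  · rw [csum_add, csum_smul]
    have hge := hy4 S hS hodd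
    by_cases htight : csum ends y S = 1
    · rw [csum_eq_zero_of_tight hV ⟨hy1, hy2, hy3, hy4⟩ hnt hsupp hv hS hodd htight, htight]
      simp
    · have hgt : 1 < csum ends y S := lt_of_le_of_ne hge (Ne.symm htight)
      have h1 : ε ≤ (csum ends y S - 1) / (|csum ends h S| + 1) := by
        have := hle (Sum.inr S)
        simpa [δ, hgt] using this
      have hpos1 : (0 : ℝ) < |csum ends h S| + 1 := by positivity
      have h3 : |t| * (|csum ends h S| + 1) ≤ csum ends y S - 1 := by
        have := mul_le_mul_of_nonneg_right (ht.trans h1) hpos1.le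
        rwa [div_mul_cancel₀ _ hpos1.ne'] at this
      have h2 : |t * csum ends h S| ≤ csum ends y S - 1 := by
        rw [abs_mul]
        nlinarith [abs_nonneg t, abs_nonneg (csum ends h S)]
      have := neg_abs_le (t * csum ends h S)
      linarith

omit [DecidableEq E] in
/-- An extreme point of `Q`, positive on `A`, without nontrivial tight odd set, equals `1` on
`A`.  `K` is the conclusion of package K (`exists_kernel_vector`). -/
theorem extreme_eq_one_of_no_tight {ends : E → V × V} {U : Finset V} {A : Finset E}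
    (hV : Valid ends U A) {y : E → ℝ} (hy : y ∈ (Q ends U A).extremePoints ℝ)
    (hpos : ∀ e ∈ A, 0 < y e)
    (hnt : ∀ S, S ⊆ U → Odd S.card → 3 ≤ S.card → S.card + 3 ≤ U.card → csum ends y S ≠ 1)
    (K : ∀ e0 ∈ A, y e0 < 1 →
      ∃ h : E → ℝ, h ≠ 0 ∧ (∀ e, e ∉ A → h e = 0) ∧ ∀ u ∈ U, vsum ends h u = 0) :
    ∀ e ∈ A, y e = 1 := by
  intro e0 he0
  by_contra hne
  have hyQ : y ∈ Q ends U A := hy.1
  have hlt : y e0 < 1 := lt_of_le_of_ne (Q_le_one hV hyQ e0) hne
  obtain ⟨h, hh0, hsupp, hv⟩ := K e0 he0 hlt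
  obtain ⟨ε, hε, hpert⟩ := exists_perturbation hV hyQ hpos hnt hsupp hv
  have h1 : y + ε • h ∈ Q ends U A := hpert ε (by rw [abs_of_pos hε])
  have h2 : y + (-ε) • h ∈ Q ends U A := hpert (-ε) (by rw [abs_neg, abs_of_pos hε])
  have hseg : y ∈ openSegment ℝ (y + ε • h) (y + (-ε) • h) := by
    refine ⟨1 / 2, 1 / 2, by norm_num, by norm_num, by norm_num, ?_⟩
    funext e
    simp only [Pi.add_apply, Pi.smul_apply, smul_eq_mul]
    ring
  have hext := (mem_extremePoints.mp hy).2 _ h1 _ h2 hseg
  apply hh0
  funext e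
  have he := congrFun hext.1 e
  simp only [Pi.add_apply, Pi.smul_apply, smul_eq_mul, Pi.zero_apply] at he ⊢
  have : ε * h e = 0 := by linarith
  rcases mul_eq_zero.mp this with h0 | h0
  · exact absurd h0 hε.ne'
  · exact h0

/-- Under the same hypotheses the extreme point is the indicator vector of `A`, and `A` is a
perfect matching of `U`. -/
theorem extreme_is_matching {ends : E → V × V} {U : Finset V} {A : Finset E}
    (hV : Valid ends U A) {y : E → ℝ} (hy : y ∈ (Q ends U A).extremePoints ℝ)
    (hpos : ∀ e ∈ A, 0 < y e)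
    (hnt : ∀ S, S ⊆ U → Odd S.card → 3 ≤ S.card → S.card + 3 ≤ U.card → csum ends y S ≠ 1)
    (K : ∀ e0 ∈ A, y e0 < 1 →
      ∃ h : E → ℝ, h ≠ 0 ∧ (∀ e, e ∉ A → h e = 0) ∧ ∀ u ∈ U, vsum ends h u = 0) :
    y = chi A ∧ IsPM ends U A A := by
  have hone := extreme_eq_one_of_no_tight hV hy hpos hnt K
  have hyQ : y ∈ Q ends U A := hy.1
  have hychi : y = chi A := by
    funext e
    by_cases he : e ∈ A
    · rw [hone e he, chi_apply, if_pos he]
    · rw [hyQ.2.1 e he, chi_apply, if_neg he]
  refine ⟨hychi, Finset.Subset.refl A, fun u hu => ?_⟩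
  have h1 := hyQ.2.2.1 u hu
  rw [hychi, vsum_chi] at h1
  exact_mod_cast h1

/-- The extreme point lies in `P`. -/
theorem extreme_mem_P_of_no_tight {ends : E → V × V} {U : Finset V} {A : Finset E}
    (hV : Valid ends U A) {y : E → ℝ} (hy : y ∈ (Q ends U A).extremePoints ℝ)
    (hpos : ∀ e ∈ A, 0 < y e)
    (hnt : ∀ S, S ⊆ U → Odd S.card → 3 ≤ S.card → S.card + 3 ≤ U.card → csum ends y S ≠ 1)
    (K : ∀ e0 ∈ A, y e0 < 1 →
      ∃ h : E → ℝ, h ≠ 0 ∧ (∀ e, e ∉ A → h e = 0) ∧ ∀ u ∈ U, vsum ends h u = 0) :
    y ∈ P ends U A := by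
  obtain ⟨hychi, hPM⟩ := extreme_is_matching hV hy hpos hnt K
  rw [hychi]
  exact subset_convexHull ℝ _ ⟨A, hPM, rfl⟩

end Crest.Agent.S0466.Helper92
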