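import Crest.Agent.Lib.S0466.Helper6DB
import Crest.Agent.Lib.S0466.Helper92NoTight
import Crest.Agent.Lib.S0466.Helper63K
import Crest.Agent.Lib.S0466.Helper13DA

/-!
# S0466 (helper6): Edmonds' perfect matching polytope theorem and the dimension bound
-/

set_option autoImplicit false
set_option linter.unusedSectionVars false
set_option linter.unusedDecidableInType false
set_option linter.unnecessarySeqFocus false
set_option linter.unusedVariables false

namespace Crest.Agent.S0466

open Finset

variable {V E : Type*} [Fintype V] [DecidableEq V] [Fintype E] [DecidableEq E]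

/-- **Edmonds' perfect matching polytope theorem** for multigraphs with active vertex set `U`
and active edge set `A`. -/
theorem edmonds : ∀ (n : ℕ) (ends : E → V × V) (U : Finset V) (A : Finset E),
    U.card = n → Valid ends U A → Q ends U A ⊆ P ends U A := by
  intro n
  induction n using Nat.strong_induction_on with
  | _ n ih =>
  intro ends U A hn hV
  apply Helper92.Q_subset_P_of_extreme hV
  intro y hext
  have hyQ : y ∈ Q ends U A := (mem_extremePoints.mp hext).1
  -- restrict the active edges to the support of `y`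
  set A' := A.filter (fun e => y e ≠ 0) with hA'
  have hA'A : A' ⊆ A := Finset.filter_subset _ _
  have hV' : Valid ends U A' := fun e he => hV e (hA'A he)
  have hy0 : ∀ e, e ∉ A' → y e = 0 := by
    intro e he
    by_cases heA : e ∈ A
    · by_contra h
      exact he (Finset.mem_filter.mpr ⟨heA, h⟩)
    · exact hyQ.2.1 e heA
  have hyQ' : y ∈ Q ends U A' := Q_mono_supp hyQ hy0
  have hsub : Q ends U A' ⊆ Q ends U A := fun z hz =>
    Q_mono_supp hz (fun e he => hz.2.1 e (fun h => he (hA'A h)))
  have hext' : y ∈ (Q ends U A').extremePoints ℝ :=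
    inter_extremePoints_subset_extremePoints_of_subset hsub ⟨hyQ', hext⟩
  have hpos : ∀ e ∈ A', 0 < y e := fun e he =>
    lt_of_le_of_ne (hyQ.1 e) (Ne.symm (Finset.mem_filter.mp he).2)
  apply P_mono hA'A
  by_cases hex : ∃ S, S ⊆ U ∧ Odd S.card ∧ 3 ≤ S.card ∧ S.card + 3 ≤ U.card ∧
      csum ends y S = 1
  · obtain ⟨S, hSU, hodd, h3, h3', htight⟩ := hex
    have heven := Q_even_card hV' hyQ'
    obtain ⟨s0, hs0⟩ : S.Nonempty := Finset.card_pos.mp (by omega)
    have hUS : (U \ S).card = U.card - S.card := Finset.card_sdiff_of_subset hSU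
    obtain ⟨t0, ht0⟩ : (U \ S).Nonempty := Finset.card_pos.mp (by omega)
    have hScard : S.card ≤ U.card := Finset.card_le_card hSU
    have h1 : cy ends S y ∈ P (cends ends S s0) (cU U S s0) (cA ends A' S) := by
      have hQ1 := cy_mem_Q hV' hSU hodd hs0 hyQ' htight
      exact ih (cU U S s0).card (by rw [card_cU hSU hs0]; omega) _ _ _ rfl
        (valid_contract hV' hs0) hQ1
    have hodd2 : Odd (U \ S).card := by
      rw [hUS]
      rcases heven with ⟨a, ha⟩
      rcases hodd with ⟨b, hb⟩
      exact ⟨a - b - 1, by omega⟩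
    have htight2 : csum ends y (U \ S) = 1 := by
      rw [csum_compl hV' y hy0 S]; exact htight
    have h2 : cy ends (U \ S) y ∈
        P (cends ends (U \ S) t0) (cU U (U \ S) t0) (cA ends A' (U \ S)) := by
      have hQ2 := cy_mem_Q hV' Finset.sdiff_subset hodd2 ht0 hyQ' htight2
      exact ih (cU U (U \ S) t0).card
        (by rw [card_cU Finset.sdiff_subset ht0, hUS]; omega) _ _ _ rfl
        (valid_contract hV' ht0) hQ2
    exact glue hV' hSU hs0 ht0 hy0 h1 h2
  · push Not at hex
    have hnt : ∀ S, S ⊆ U → Odd S.card → 3 ≤ S.card → S.card + 3 ≤ U.card →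
        csum ends y S ≠ 1 := hex
    exact Helper92.extreme_mem_P_of_no_tight hV' hext' hpos hnt
      (fun e0 he0 hlt => Helper63.exists_kernel_vector hV' hyQ' hpos he0 hlt hnt)

/-- **Dimension bound** for points of `Q` that are positive on the active edges. -/
theorem dim_bound : ∀ (n : ℕ) (ends : E → V × V) (U : Finset V) (A : Finset E) (x : E → ℝ),
    U.card = n → Valid ends U A → x ∈ Q ends U A → (∀ e ∈ A, 0 < x e) → 2 ≤ n →
    ∃ L : Submodule ℝ (E → ℝ),
      (∀ h ∈ L, ∃ ε > 0, ∀ t : ℝ, |t| < ε → x + t • h ∈ P ends U A) ∧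
      2 * A.card + 4 ≤ 2 * Module.finrank ℝ L + 3 * n := by
  intro n
  induction n using Nat.strong_induction_on with
  | _ n ih =>
  intro ends U A x hn hV hx hpos hn2
  by_cases hex : ∃ S, S ⊆ U ∧ Odd S.card ∧ 3 ≤ S.card ∧ S.card + 3 ≤ U.card ∧
      csum ends x S = 1
  · obtain ⟨S, hSU, hodd, h3, h3', htight⟩ := hex
    have heven := Q_even_card hV hx
    obtain ⟨s0, hs0⟩ : S.Nonempty := Finset.card_pos.mp (by omega)
    have hUS : (U \ S).card = U.card - S.card := Finset.card_sdiff_of_subset hSU
    obtain ⟨t0, ht0⟩ : (U \ S).Nonempty := Finset.card_pos.mp (by omega)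
    have hScard : S.card ≤ U.card := Finset.card_le_card hSU
    have hx0 : ∀ e, e ∉ A → x e = 0 := hx.2.1
    -- side 1
    have hQ1 := cy_mem_Q hV hSU hodd hs0 hx htight
    have hpos1 : ∀ e ∈ cA ends A S, 0 < cy ends S x e := by
      intro e he
      rw [cA, Finset.mem_filter] at he
      rw [cy_of_not_inside x he.2]
      exact hpos e he.1
    have hc1 : (cU U S s0).card = U.card - S.card + 1 := card_cU hSU hs0
    obtain ⟨L1, hL1, hd1⟩ := ih (cU U S s0).card (by omega) (cends ends S s0) (cU U S s0)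
      (cA ends A S) (cy ends S x) rfl (valid_contract hV hs0) hQ1 hpos1 (by omega)
    -- side 2
    have hodd2 : Odd (U \ S).card := by
      rw [hUS]
      rcases heven with ⟨a, ha⟩
      rcases hodd with ⟨b, hb⟩
      exact ⟨a - b - 1, by omega⟩
    have htight2 : csum ends x (U \ S) = 1 := by
      rw [csum_compl hV x hx0 S]; exact htight
    have hQ2 := cy_mem_Q hV Finset.sdiff_subset hodd2 ht0 hx htight2
    have hpos2 : ∀ e ∈ cA ends A (U \ S), 0 < cy ends (U \ S) x e := by
      intro e he
      rw [cA, Finset.mem_filter] at he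
      rw [cy_of_not_inside x he.2]
      exact hpos e he.1
    have hc2 : (cU U (U \ S) t0).card = U.card - (U \ S).card + 1 :=
      card_cU Finset.sdiff_subset ht0
    obtain ⟨L2, hL2, hd2⟩ := ih (cU U (U \ S) t0).card (by omega) (cends ends (U \ S) t0)
      (cU U (U \ S) t0) (cA ends A (U \ S)) (cy ends (U \ S) x) rfl (valid_contract hV ht0)
      hQ2 hpos2 (by omega)
    obtain ⟨L, hL, hd⟩ := dim_caseB hV hSU hs0 ht0 hx htight L1 L2 hL1 hL2
    have hcard := card_cA_add hV (A := A) S
    refine ⟨L, hL, ?_⟩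
    omega
  · push Not at hex
    have hQP := edmonds n ends U A hn hV
    obtain ⟨L, hL, hd⟩ := Helper13.dim_caseA hV hQP hx (by omega)
      (fun h hh hv => by
        obtain ⟨ε, hε, hp⟩ := Helper92.exists_perturbation hV hx hpos hex hh hv
        exact ⟨ε, hε, fun t ht => hp t ht.le⟩)
    exact ⟨L, hL, by omega⟩

/-- **Main theorem** in the shape used by the bridge to the frozen statement. -/
theorem main {ends : E → V × V} {U : Finset V} {A : Finset E} (hV : Valid ends U A)
    (hU : U.Nonempty) {x : E → ℝ} (hx : x ∈ P ends U A) :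
    ∃ L : Submodule ℝ (E → ℝ),
      (∀ h ∈ L, ∃ ε > 0, ∀ t : ℝ, |t| < ε → x + t • h ∈ P ends U A) ∧
      (A.filter (fun e => 0 < x e)).card + 2 ≤ Module.finrank ℝ L + 3 * (U.card / 2) := by
  have hxQ := P_subset_Q hV hx
  set A' := A.filter (fun e => 0 < x e) with hA'
  have hA'A : A' ⊆ A := Finset.filter_subset _ _
  have hV' : Valid ends U A' := fun e he => hV e (hA'A he)
  have hx0 : ∀ e, e ∉ A' → x e = 0 := by
    intro e he
    by_cases heA : e ∈ A
    · have : ¬ 0 < x e := fun h => he (Finset.mem_filter.mpr ⟨heA, h⟩)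
      exact le_antisymm (not_lt.mp this) (hxQ.1 e)
    · exact hxQ.2.1 e heA
  have hxQ' : x ∈ Q ends U A' := Q_mono_supp hxQ hx0
  have hpos : ∀ e ∈ A', 0 < x e := fun e he => (Finset.mem_filter.mp he).2
  have heven := Q_even_card hV hxQ
  have hcard : 0 < U.card := Finset.card_pos.mpr hU
  rcases heven with ⟨k, hk⟩
  obtain ⟨L, hL, hd⟩ := dim_bound U.card ends U A' x rfl hV' hxQ' hpos (by omega)
  refine ⟨L, fun h hh => ?_, by omega⟩
  obtain ⟨ε, hε, hh'⟩ := hL h hh
  exact ⟨ε, hε, fun t ht => P_mono hA'A (hh' t ht)⟩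

end Crest.Agent.S0466
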