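import Crest.Agent.Lib.S0466.Helper6Contract

/-!
# S0466 (helper6): gluing perfect matchings and polytope points along a cut
-/

set_option autoImplicit false
set_option linter.unusedSectionVars false
set_option linter.unusedDecidableInType false
set_option linter.unnecessarySeqFocus false
set_option linter.unusedVariables false

namespace Crest.Agent.S0466

open Finset

variable {V E : Type*} [Fintype V] [DecidableEq V] [Fintype E] [DecidableEq E]

/-- A convex combination whose points need to lie in `C` only where the weight is nonzero. -/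
lemma convex_sum_mem' {ι F : Type*} [AddCommGroup F] [Module ℝ F] (T : Finset ι) (c : ι → ℝ)
    (z : ι → F) {C : Set F} (hC : Convex ℝ C) (hc : ∀ i ∈ T, 0 ≤ c i)
    (hsum : ∑ i ∈ T, c i = 1) (hz : ∀ i ∈ T, c i ≠ 0 → z i ∈ C) :
    ∑ i ∈ T, c i • z i ∈ C := by
  classical
  have h1 : ∑ i ∈ T.filter (fun i => c i ≠ 0), c i • z i = ∑ i ∈ T, c i • z i := by
    refine Finset.sum_subset (Finset.filter_subset _ _) fun i hi hni => ?_
    have : c i = 0 := by
      by_contra h
      exact hni (Finset.mem_filter.mpr ⟨hi, h⟩)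
    simp [this]
  have h2 : ∑ i ∈ T.filter (fun i => c i ≠ 0), c i = 1 := by
    rw [← hsum]
    refine Finset.sum_subset (Finset.filter_subset _ _) fun i hi hni => ?_
    by_contra h
    exact hni (Finset.mem_filter.mpr ⟨hi, h⟩)
  rw [← h1]
  exact hC.sum_mem (fun i hi => hc i (Finset.mem_filter.mp hi).1) h2
    (fun i hi => hz i (Finset.mem_filter.mp hi).1 (Finset.mem_filter.mp hi).2)

/-- Points of `P` are the marginals of laws on perfect matchings. -/
lemma mem_P_iff (ends : E → V × V) (U : Finset V) (A : Finset E) (y : E → ℝ) :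
    y ∈ P ends U A ↔ ∃ w : Finset E → ℝ, (∀ M, 0 ≤ w M) ∧ ∑ M, w M = 1 ∧
      (∀ M, w M ≠ 0 → IsPM ends U A M) ∧ y = ∑ M, w M • chi M := by
  constructor
  · intro hy
    let C : Set (E → ℝ) := {y | ∃ w : Finset E → ℝ, (∀ M, 0 ≤ w M) ∧ ∑ M, w M = 1 ∧
      (∀ M, w M ≠ 0 → IsPM ends U A M) ∧ y = ∑ M, w M • chi M}
    have hC : Convex ℝ C := by
      rintro y ⟨w, hw1, hw2, hw3, rfl⟩ z ⟨w', hw1', hw2', hw3', rfl⟩ a b ha hb hab
      refine ⟨fun M => a * w M + b * w' M, fun M => ?_, ?_, fun M hM => ?_, ?_⟩
      · have := hw1 M; have := hw1' M; positivity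
      · rw [Finset.sum_add_distrib, ← Finset.mul_sum, ← Finset.mul_sum, hw2, hw2']; linarith
      · by_cases h : w M = 0
        · apply hw3'
          intro h'
          apply hM
          simp [h, h']
        · exact hw3 M h
      · rw [Finset.smul_sum, Finset.smul_sum, ← Finset.sum_add_distrib]
        refine Finset.sum_congr rfl fun M _ => ?_
        rw [add_smul, mul_smul, mul_smul]
    have hgen : chi '' {M : Finset E | IsPM ends U A M} ⊆ C := by
      rintro _ ⟨M0, hM0, rfl⟩
      refine ⟨fun M => if M = M0 then 1 else 0, fun M => ?_, ?_, fun M hM => ?_, ?_⟩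
      · show (0:ℝ) ≤ if M = M0 then 1 else 0
        split_ifs <;> norm_num
      · simp
      · by_cases h : M = M0
        · rw [h]; exact hM0
        · simp [h] at hM
      · simp
    exact convexHull_min hgen hC hy
  · rintro ⟨w, hw1, hw2, hw3, rfl⟩
    exact convex_sum_mem' Finset.univ w chi (convex_convexHull ℝ _) (fun M _ => hw1 M) hw2
      (fun M _ hM => subset_convexHull ℝ _ ⟨M, hw3 M hM, rfl⟩)

/-- The degree sum of the restriction at the contracted vertex is the cut sum. -/
lemma vsum_cends_self (ends : E → V × V) {S : Finset V} {s0 : V} (hs0 : s0 ∈ S) (y : E → ℝ) :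
    vsum (cends ends S s0) (cy ends S y) s0 = csum ends y S := by
  unfold vsum csum
  rw [Finset.sum_filter, Finset.sum_filter]
  refine Finset.sum_congr rfl fun e _ => ?_
  simp only [inc_cends_self ends hs0]
  unfold cy inside crosses
  by_cases ha : (ends e).1 ∈ S <;> by_cases hb : (ends e).2 ∈ S <;> simp [ha, hb]

/-- Two perfect matchings of the two contractions sharing their cut edge glue to a perfect
matching. -/
lemma pm_glue {ends : E → V × V} {U : Finset V} {A : Finset E} (hV : Valid ends U A)
    {S : Finset V} (hSU : S ⊆ U) {s0 t0 : V} (hs0 : s0 ∈ S) (ht0 : t0 ∈ U \ S)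
    {M1 M2 : Finset E}
    (hM1 : IsPM (cends ends S s0) (cU U S s0) (cA ends A S) M1)
    (hM2 : IsPM (cends ends (U \ S) t0) (cU U (U \ S) t0) (cA ends A (U \ S)) M2)
    {e : E} (he1 : e ∈ M1) (he2 : e ∈ M2) (hce : crosses ends S e) :
    IsPM ends U A (M1 ∪ M2) ∧ chi (M1 ∪ M2) = chi M1 + chi M2 - chi {e} := by
  have hM1A : ∀ f ∈ M1, f ∈ A ∧ ¬ inside ends S f := by
    intro f hf
    have := hM1.1 hf
    rwa [cA, Finset.mem_filter] at this
  have hM2A : ∀ f ∈ M2, f ∈ A ∧ ¬ inside ends (U \ S) f := by
    intro f hf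
    have := hM2.1 hf
    rwa [cA, Finset.mem_filter] at this
  have hc1 : M1.filter (fun f => crosses ends S f) = {e} := by
    obtain ⟨a, ha⟩ := Finset.card_eq_one.mp (hM1.card_cross hs0)
    have : e ∈ M1.filter (fun f => crosses ends S f) := Finset.mem_filter.mpr ⟨he1, hce⟩
    rw [ha, Finset.mem_singleton] at this
    rw [ha, this]
  have hc2 : M2.filter (fun f => crosses ends S f) = {e} := by
    have hcard : (M2.filter (fun f => crosses ends S f)).card = 1 := by
      rw [← hM2.card_cross ht0]
      congr 1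
      refine Finset.filter_congr fun f hf => ?_
      exact (crosses_compl hV (hM2A f hf).1 S).symm
    obtain ⟨a, ha⟩ := Finset.card_eq_one.mp hcard
    have : e ∈ M2.filter (fun f => crosses ends S f) := Finset.mem_filter.mpr ⟨he2, hce⟩
    rw [ha, Finset.mem_singleton] at this
    rw [ha, this]
  -- an edge of `M2` at a vertex outside `S` is the cut edge
  have key2 : ∀ f ∈ M2, ∀ u, u ∉ S → inc ends f u → f = e := by
    intro f hf u hu hi
    obtain ⟨hfA, hnin⟩ := hM2A f hf
    obtain ⟨h1, h2, _⟩ := hV f hfA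
    have hcr : crosses ends S f := by
      unfold inside at hnin
      unfold crosses
      unfold inc at hi
      simp only [Finset.mem_sdiff, h1, h2, true_and, not_and, not_not] at hnin
      rcases hi with h | h
      · have ha : (ends f).1 ∉ S := h ▸ hu
        exact Or.inr ⟨ha, hnin ha⟩
      · have hb : (ends f).2 ∉ S := h ▸ hu
        refine Or.inl ⟨?_, hb⟩
        by_contra ha
        exact hb (hnin ha)
    have : f ∈ M2.filter (fun f => crosses ends S f) := Finset.mem_filter.mpr ⟨hf, hcr⟩
    rw [hc2, Finset.mem_singleton] at this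
    exact this
  -- an edge of `M1` at a vertex of `S` is the cut edge
  have key1 : ∀ f ∈ M1, ∀ u, u ∈ S → inc ends f u → f = e := by
    intro f hf u hu hi
    obtain ⟨hfA, hnin⟩ := hM1A f hf
    have hcr : crosses ends S f := by
      unfold inside at hnin
      unfold crosses
      unfold inc at hi
      rcases hi with h | h
      · have ha : (ends f).1 ∈ S := h ▸ hu
        exact Or.inl ⟨ha, fun hb => hnin ⟨ha, hb⟩⟩
      · have hb : (ends f).2 ∈ S := h ▸ hu
        exact Or.inr ⟨fun ha => hnin ⟨ha, hb⟩, hb⟩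
    have : f ∈ M1.filter (fun f => crosses ends S f) := Finset.mem_filter.mpr ⟨hf, hcr⟩
    rw [hc1, Finset.mem_singleton] at this
    exact this
  refine ⟨⟨?_, fun u hu => ?_⟩, ?_⟩
  · intro f hf
    rcases Finset.mem_union.mp hf with h | h
    · exact (hM1A f h).1
    · exact (hM2A f h).1
  · by_cases huS : u ∈ S
    · have hfil : (M1 ∪ M2).filter (fun f => inc ends f u)
          = M2.filter (fun f => inc (cends ends (U \ S) t0) f u) := by
        have hu' : u ∉ U \ S := by simp [huS]
        ext f
        simp only [Finset.mem_filter, Finset.mem_union, inc_cends_of_not_mem ends ht0 hu']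
        constructor
        · rintro ⟨h | h, hi⟩
          · exact ⟨key1 f h u huS hi ▸ he2, hi⟩
          · exact ⟨h, hi⟩
        · rintro ⟨h, hi⟩
          exact ⟨Or.inr h, hi⟩
      rw [hfil]
      apply hM2.2
      rw [cU, Finset.mem_insert]
      right
      simp [hu, huS]
    · have hfil : (M1 ∪ M2).filter (fun f => inc ends f u)
          = M1.filter (fun f => inc (cends ends S s0) f u) := by
        ext f
        simp only [Finset.mem_filter, Finset.mem_union, inc_cends_of_not_mem ends hs0 huS]
        constructor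
        · rintro ⟨h | h, hi⟩
          · exact ⟨h, hi⟩
          · exact ⟨key2 f h u huS hi ▸ he1, hi⟩
        · rintro ⟨h, hi⟩
          exact ⟨Or.inl h, hi⟩
      rw [hfil]
      apply hM1.2
      rw [cU, Finset.mem_insert]
      right
      simp [hu, huS]
  · -- indicator identity
    have hinter : ∀ f, f ∈ M1 → f ∈ M2 → f = e := by
      intro f hf1 hf2
      obtain ⟨hfA, hnin1⟩ := hM1A f hf1
      obtain ⟨_, hnin2⟩ := hM2A f hf2
      obtain ⟨h1, h2, _⟩ := hV f hfA
      have hcr : crosses ends S f := by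
        unfold inside at hnin1 hnin2
        unfold crosses
        simp only [Finset.mem_sdiff, h1, h2, true_and, not_and, not_not] at hnin2
        by_cases ha : (ends f).1 ∈ S
        · exact Or.inl ⟨ha, fun hb => hnin1 ⟨ha, hb⟩⟩
        · exact Or.inr ⟨ha, hnin2 ha⟩
      have : f ∈ M1.filter (fun f => crosses ends S f) := Finset.mem_filter.mpr ⟨hf1, hcr⟩
      rw [hc1, Finset.mem_singleton] at this
      exact this
    funext f
    simp only [chi, Pi.add_apply, Pi.sub_apply, Finset.mem_union, Finset.mem_singleton]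
    by_cases hfe : f = e
    · subst hfe; simp [he1, he2]
    · by_cases hf1 : f ∈ M1
      · have hf2 : f ∉ M2 := fun h => hfe (hinter f hf1 h)
        simp [hf1, hf2, hfe]
      · by_cases hf2 : f ∈ M2 <;> simp [hf1, hf2, hfe]

omit [Fintype V] [DecidableEq V] in
lemma sum_triple {β : Type*} [AddCommMonoid β] (D : Finset E)
    (F : E × Finset E × Finset E → β) :
    ∑ p ∈ D ×ˢ ((Finset.univ : Finset (Finset E)) ×ˢ (Finset.univ : Finset (Finset E))), F p
      = ∑ e ∈ D, ∑ M1 : Finset E, ∑ M2 : Finset E, F (e, M1, M2) := by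
  rw [Finset.sum_product]
  refine Finset.sum_congr rfl fun e _ => ?_
  rw [Finset.sum_product]

/-- **Gluing.**  If the restrictions of `y` to the two contractions along `S` lie in the
respective perfect matching polytopes, then `y` lies in the perfect matching polytope. -/
theorem glue {ends : E → V × V} {U : Finset V} {A : Finset E} (hV : Valid ends U A)
    {S : Finset V} (hSU : S ⊆ U) {s0 t0 : V} (hs0 : s0 ∈ S) (ht0 : t0 ∈ U \ S)
    {y : E → ℝ} (hyA : ∀ e, e ∉ A → y e = 0)
    (h1 : cy ends S y ∈ P (cends ends S s0) (cU U S s0) (cA ends A S))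
    (h2 : cy ends (U \ S) y ∈
      P (cends ends (U \ S) t0) (cU U (U \ S) t0) (cA ends A (U \ S))) :
    y ∈ P ends U A := by
  classical
  have hV1 : Valid (cends ends S s0) (cU U S s0) (cA ends A S) := valid_contract hV hs0
  have hQ1 := P_subset_Q hV1 h1
  obtain ⟨w1, hw1nn, hw1sum, hw1pm, hy1⟩ := (mem_P_iff _ _ _ _).mp h1
  obtain ⟨w2, hw2nn, hw2sum, hw2pm, hy2⟩ := (mem_P_iff _ _ _ _).mp h2
  -- marginals
  have ha1 : ∀ e, cy ends S y e = ∑ M, if e ∈ M then w1 M else 0 := by
    intro e
    rw [hy1, Finset.sum_apply]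
    refine Finset.sum_congr rfl fun M _ => ?_
    simp [chi]
  have ha2 : ∀ e, cy ends (U \ S) y e = ∑ M, if e ∈ M then w2 M else 0 := by
    intro e
    rw [hy2, Finset.sum_apply]
    refine Finset.sum_congr rfl fun M _ => ?_
    simp [chi]
  have hcr1 : ∀ e, crosses ends S e → cy ends S y e = y e := by
    intro e he
    apply cy_of_not_inside
    unfold crosses at he
    unfold inside
    tauto
  have hcr2 : ∀ e, crosses ends S e → cy ends (U \ S) y e = y e := by
    intro e he
    apply cy_of_not_inside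
    unfold crosses at he
    unfold inside
    simp only [Finset.mem_sdiff]
    tauto
  have hyD1 : ∀ e, crosses ends S e → y e = ∑ M, if e ∈ M then w1 M else 0 := by
    intro e he; rw [← hcr1 e he]; exact ha1 e
  have hyD2 : ∀ e, crosses ends S e → y e = ∑ M, if e ∈ M then w2 M else 0 := by
    intro e he; rw [← hcr2 e he]; exact ha2 e
  have hle1 : ∀ e, crosses ends S e → ∀ M, e ∈ M → w1 M ≤ y e := by
    intro e he M heM
    rw [hyD1 e he]
    have := Finset.single_le_sum (f := fun M => if e ∈ M then w1 M else 0)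
      (fun M _ => by split_ifs; exact hw1nn M; exact le_refl _) (Finset.mem_univ M)
    simpa [heM] using this
  have hle2 : ∀ e, crosses ends S e → ∀ M, e ∈ M → w2 M ≤ y e := by
    intro e he M heM
    rw [hyD2 e he]
    have := Finset.single_le_sum (f := fun M => if e ∈ M then w2 M else 0)
      (fun M _ => by split_ifs; exact hw2nn M; exact le_refl _) (Finset.mem_univ M)
    simpa [heM] using this
  have hynn : ∀ e, crosses ends S e → 0 ≤ y e := by
    intro e he
    rw [hyD1 e he]
    exact Finset.sum_nonneg fun M _ => by split_ifs; exact hw1nn M; exact le_refl _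
  set D : Finset E := Finset.univ.filter (fun e => crosses ends S e) with hD
  have hDmem : ∀ e, e ∈ D ↔ crosses ends S e := by intro e; simp [hD]
  let c : E × Finset E × Finset E → ℝ := fun p =>
    if p.1 ∈ p.2.1 ∧ p.1 ∈ p.2.2 then w1 p.2.1 * w2 p.2.2 / y p.1 else 0
  let T : Finset (E × Finset E × Finset E) :=
    D ×ˢ ((Finset.univ : Finset (Finset E)) ×ˢ (Finset.univ : Finset (Finset E)))
  -- partial sums of the weights
  have H1 : ∀ e ∈ D, ∀ M1, ∑ M2, c (e, M1, M2) = if e ∈ M1 then w1 M1 else 0 := by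
    intro e he M1
    have hce := (hDmem e).mp he
    by_cases h : e ∈ M1
    · have hc : ∀ M2, c (e, M1, M2) = w1 M1 / y e * (if e ∈ M2 then w2 M2 else 0) := by
        intro M2
        simp only [c, h, true_and]
        split_ifs
        · ring
        · ring
      simp_rw [hc]
      rw [← Finset.mul_sum, ← hyD2 e hce, if_pos h]
      by_cases hy0 : y e = 0
      · have : w1 M1 = 0 := le_antisymm (hy0 ▸ hle1 e hce M1 h) (hw1nn M1)
        simp [this]
      · exact div_mul_cancel₀ _ hy0
    · simp [c, h]
  have H2 : ∀ e ∈ D, ∀ M2, ∑ M1, c (e, M1, M2) = if e ∈ M2 then w2 M2 else 0 := by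
    intro e he M2
    have hce := (hDmem e).mp he
    by_cases h : e ∈ M2
    · have hc : ∀ M1, c (e, M1, M2) = (if e ∈ M1 then w1 M1 else 0) * (w2 M2 / y e) := by
        intro M1
        simp only [c, h, and_true]
        split_ifs
        · ring
        · ring
      simp_rw [hc]
      rw [← Finset.sum_mul, ← hyD1 e hce, if_pos h]
      by_cases hy0 : y e = 0
      · have : w2 M2 = 0 := le_antisymm (hy0 ▸ hle2 e hce M2 h) (hw2nn M2)
        simp [this]
      · field_simp
    · simp [c, h]
  have H3 : ∀ M1, ∑ e ∈ D, (if e ∈ M1 then w1 M1 else 0) = w1 M1 := by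
    intro M1
    by_cases hw : w1 M1 = 0
    · simp [hw]
    · have hcard := (hw1pm M1 hw).card_cross hs0
      rw [← Finset.sum_filter, Finset.sum_const]
      have : D.filter (fun e => e ∈ M1) = M1.filter (fun e => crosses ends S e) := by
        ext e; simp [hD, and_comm]
      rw [this, hcard, one_smul]
  have H4 : ∀ M2, ∑ e ∈ D, (if e ∈ M2 then w2 M2 else 0) = w2 M2 := by
    intro M2
    by_cases hw : w2 M2 = 0
    · simp [hw]
    · have hPM := hw2pm M2 hw
      have hcard : (M2.filter (fun e => crosses ends S e)).card = 1 := by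
        rw [← hPM.card_cross ht0]
        congr 1
        refine Finset.filter_congr fun f hf => ?_
        have hfA : f ∈ A := by
          have := hPM.1 hf
          rw [cA, Finset.mem_filter] at this
          exact this.1
        exact (crosses_compl hV hfA S).symm
      rw [← Finset.sum_filter, Finset.sum_const]
      have : D.filter (fun e => e ∈ M2) = M2.filter (fun e => crosses ends S e) := by
        ext e; simp [hD, and_comm]
      rw [this, hcard, one_smul]
  have HA : ∀ e ∈ D, ∑ M1, ∑ M2, c (e, M1, M2) = y e := by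
    intro e he
    rw [Finset.sum_congr rfl (fun M1 _ => H1 e he M1)]
    exact (hyD1 e ((hDmem e).mp he)).symm
  -- total weight
  have hcsum : ∑ p ∈ T, c p = 1 := by
    show ∑ p ∈ D ×ˢ _, c p = 1
    rw [sum_triple D c, Finset.sum_congr rfl HA]
    have h := hQ1.2.2.1 s0 (Finset.mem_insert_self _ _)
    rw [vsum_cends_self ends hs0] at h
    exact h
  have hcnn : ∀ p ∈ T, 0 ≤ c p := by
    intro p hp
    have hpD : p.1 ∈ D := (Finset.mem_product.mp hp).1
    simp only [c]
    split_ifs
    · exact div_nonneg (mul_nonneg (hw1nn _) (hw2nn _)) (hynn _ ((hDmem _).mp hpD))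
    · exact le_refl _
  -- the glued matchings
  have hglue : ∀ p ∈ T, c p ≠ 0 →
      IsPM ends U A (p.2.1 ∪ p.2.2) ∧ chi (p.2.1 ∪ p.2.2) = chi p.2.1 + chi p.2.2 - chi {p.1} := by
    intro p hp hcp
    have hpD : p.1 ∈ D := (Finset.mem_product.mp hp).1
    simp only [c] at hcp
    split_ifs at hcp with hmem
    · have hw1 : w1 p.2.1 ≠ 0 := by
        intro h; apply hcp; simp [h]
      have hw2 : w2 p.2.2 ≠ 0 := by
        intro h; apply hcp; simp [h]
      exact pm_glue hV hSU hs0 ht0 (hw1pm _ hw1) (hw2pm _ hw2) hmem.1 hmem.2 ((hDmem _).mp hpD)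
    · exact absurd rfl hcp
  have hmemP : ∑ p ∈ T, c p • chi (p.2.1 ∪ p.2.2) ∈ P ends U A :=
    convex_sum_mem' T c (fun p => chi (p.2.1 ∪ p.2.2)) (convex_convexHull ℝ _) hcnn hcsum
      (fun p hp hcp => subset_convexHull ℝ _ ⟨_, (hglue p hp hcp).1, rfl⟩)
  -- compute the combination
  have hrew : ∑ p ∈ T, c p • chi (p.2.1 ∪ p.2.2)
      = ∑ p ∈ T, (c p • chi p.2.1 + c p • chi p.2.2 - c p • chi {p.1}) := by
    refine Finset.sum_congr rfl fun p hp => ?_
    by_cases hcp : c p = 0
    · simp [hcp]
    · rw [(hglue p hp hcp).2, smul_sub, smul_add]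
  have hS1 : ∑ p ∈ T, c p • chi p.2.1 = cy ends S y := by
    show ∑ p ∈ D ×ˢ _, c p • chi p.2.1 = _
    rw [sum_triple D (fun p => c p • chi p.2.1)]
    simp only
    have : ∀ e ∈ D, ∑ M1 : Finset E, ∑ M2 : Finset E, c (e, M1, M2) • chi M1
        = ∑ M1 : Finset E, (if e ∈ M1 then w1 M1 else 0) • chi M1 := by
      intro e he
      refine Finset.sum_congr rfl fun M1 _ => ?_
      rw [← Finset.sum_smul, H1 e he M1]
    rw [Finset.sum_congr rfl this, Finset.sum_comm]
    rw [hy1]
    refine Finset.sum_congr rfl fun M1 _ => ?_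
    rw [← Finset.sum_smul, H3 M1]
  have hS2 : ∑ p ∈ T, c p • chi p.2.2 = cy ends (U \ S) y := by
    show ∑ p ∈ D ×ˢ _, c p • chi p.2.2 = _
    rw [sum_triple D (fun p => c p • chi p.2.2)]
    simp only
    have : ∀ e ∈ D, ∑ M1 : Finset E, ∑ M2 : Finset E, c (e, M1, M2) • chi M2
        = ∑ M2 : Finset E, (if e ∈ M2 then w2 M2 else 0) • chi M2 := by
      intro e he
      rw [Finset.sum_comm]
      refine Finset.sum_congr rfl fun M2 _ => ?_
      rw [← Finset.sum_smul, H2 e he M2]
    rw [Finset.sum_congr rfl this, Finset.sum_comm]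
    rw [hy2]
    refine Finset.sum_congr rfl fun M2 _ => ?_
    rw [← Finset.sum_smul, H4 M2]
  have hS3 : ∑ p ∈ T, c p • chi {p.1} = ∑ e ∈ D, y e • chi {e} := by
    show ∑ p ∈ D ×ˢ _, c p • chi {p.1} = _
    rw [sum_triple D (fun p => c p • chi {p.1})]
    simp only
    refine Finset.sum_congr rfl fun e he => ?_
    rw [← HA e he, Finset.sum_smul]
    refine Finset.sum_congr rfl fun M1 _ => ?_
    rw [Finset.sum_smul]
  have hfinal : ∑ p ∈ T, c p • chi (p.2.1 ∪ p.2.2) = y := by
    rw [hrew, Finset.sum_sub_distrib, Finset.sum_add_distrib, hS1, hS2, hS3]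
    funext f
    simp only [Pi.add_apply, Pi.sub_apply, Finset.sum_apply, Pi.smul_apply, smul_eq_mul, chi,
      Finset.mem_singleton]
    have hsum : ∑ e ∈ D, y e * (if f = e then (1:ℝ) else 0) = if f ∈ D then y f else 0 := by
      simp [Finset.sum_ite_eq]
    rw [hsum]
    by_cases hfA : f ∈ A
    · obtain ⟨hf1, hf2, _⟩ := hV f hfA
      by_cases ha : (ends f).1 ∈ S <;> by_cases hb : (ends f).2 ∈ S <;>
        simp [cy, inside, hDmem, crosses, ha, hb, hf1, hf2]
    · have h0 := hyA f hfA
      simp [cy, h0]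
  rw [← hfinal]
  exact hmemP

end Crest.Agent.S0466
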