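import Crest.Agent.Lib.S0466.Helper6Defs
import Crest.Prelude.Def_Matchings
import Crest.Prelude.Def_MatchingPolytope

/-!
# S0466 (helper92): bridge from helper6's framework to the frozen statement

`V = Fin (2 * m)`, `E = Fin k`, all vertices and all edges active.
-/

set_option autoImplicit false
set_option linter.unusedSectionVars false
set_option linter.unusedDecidableInType false

namespace Crest.Agent.S0466.Helper92

open Finset Crest.Matchings Crest.Agent.S0466

theorem valid_univ {v k : ℕ} (ends : Fin k → Fin v × Fin v)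
    (hends : ∀ e, (ends e).1 ≠ (ends e).2) :
    Valid ends (univ : Finset (Fin v)) (univ : Finset (Fin k)) :=
  fun e _ => ⟨mem_univ _, mem_univ _, hends e⟩

theorem isPM_univ_iff {v k : ℕ} (ends : Fin k → Fin v × Fin v) (M : Finset (Fin k)) :
    IsPM ends (univ : Finset (Fin v)) (univ : Finset (Fin k)) M ↔ IsPerfectMatching ends M := by
  unfold IsPM IsPerfectMatching
  have key : ∀ w : Fin v, (M.filter fun e => inc ends e w) =
      (M.filter fun e => (ends e).1 = w ∨ (ends e).2 = w) := by
    intro w
    ext e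
    rw [Finset.mem_filter, Finset.mem_filter]
    rfl
  constructor
  · rintro ⟨_, h⟩ w
    rw [← key w]
    exact h w (mem_univ w)
  · intro h
    refine ⟨Finset.subset_univ M, fun w _ => ?_⟩
    rw [key w]
    exact h w

theorem pmIndicator_eq_chi {k : ℕ} (M : Finset (Fin k)) : pmIndicator M = chi M := rfl

theorem pmPolytope_eq {v k : ℕ} (ends : Fin k → Fin v × Fin v) :
    pmPolytope ends = P ends (univ : Finset (Fin v)) (univ : Finset (Fin k)) := by
  unfold pmPolytope P
  congr 1
  ext y
  constructor
  · rintro ⟨M, hM, rfl⟩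
    exact ⟨M, (isPM_univ_iff ends M).mpr hM, (pmIndicator_eq_chi M).symm⟩
  · rintro ⟨M, hM, rfl⟩
    exact ⟨M, (isPM_univ_iff ends M).mp hM, pmIndicator_eq_chi M⟩

/-- The frozen statement of S0466 from the framework-level main theorem (MAIN), instantiated at
`V = Fin (2 * m)`, `E = Fin k`, `U = univ`, `A = univ`. -/
theorem result_of_main (m : ℕ) (k : ℕ)
    (ends : Fin k → Fin (2 * m) × Fin (2 * m))
    (x : Fin k → ℝ)
    (main : ∃ L : Submodule ℝ (Fin k → ℝ),
      (∀ h ∈ L, ∃ ε : ℝ, 0 < ε ∧ ∀ t : ℝ, |t| < ε →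
        x + t • h ∈ P ends (univ : Finset (Fin (2 * m))) (univ : Finset (Fin k))) ∧
      ((univ : Finset (Fin k)).filter fun e => 0 < x e).card + 2 ≤
        Module.finrank ℝ L + 3 * ((univ : Finset (Fin (2 * m))).card / 2)) :
    ((Finset.univ.filter fun e => 0 < x e).card : ℤ) - (pmFaceDim ends x : ℤ) ≤
      3 * (m : ℤ) - 2 := by
  obtain ⟨L, hL, hcard⟩ := main
  have hle : L ≤ Submodule.span ℝ (pmDirections ends x) := by
    intro h hh
    apply Submodule.subset_span
    obtain ⟨ε, hε, ht⟩ := hL h hh
    refine ⟨ε, hε, fun t htε => ?_⟩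
    rw [pmPolytope_eq]
    exact ht t htε
  have hfin : Module.finrank ℝ L ≤ pmFaceDim ends x := by
    unfold pmFaceDim
    exact Submodule.finrank_mono hle
  have hU : (univ : Finset (Fin (2 * m))).card / 2 = m := by
    rw [Finset.card_univ, Fintype.card_fin]
    omega
  rw [hU] at hcard
  have h2 : ((univ : Finset (Fin k)).filter fun e => 0 < x e).card + 2 ≤
      pmFaceDim ends x + 3 * m := by omega
  have h3 : ((((univ : Finset (Fin k)).filter fun e => 0 < x e).card + 2 : ℕ) : ℤ) ≤
      ((pmFaceDim ends x + 3 * m : ℕ) : ℤ) := by exact_mod_cast h2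
  push_cast at h3
  linarith

end Crest.Agent.S0466.Helper92
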